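import Crest.Agent.X212.Glue52.Cov
import Crest.Agent.X212.Glue52.More
import Crest.Agent.X212.Cyl58.Cov
import Crest.Agent.X212.Ext52.Defs

-- ▼ part X212/Rod53/GO
section

/-!
# X212 / Rod53, part GO (helper53): gluing OPEN SUBSETS of manifolds along a normal form

* `Rl I J f g p q` : near `p`, `f = g ∘ h` for a local diffeomorphism `h` with `h p = q` (an equivalence relation);
* `GO V ι S` : ambient manifolds `P i`, open sets `U i`, maps `Φ i` to a set `S`, injective on `U i`, related by `Rl`;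
* `G.M`, the charts `G.ch i` (partial diffeomorphisms with source `U i`), `G.nf : G.M → S` injective,
  tests for continuity / smoothness / local diffeomorphisms, `G.lift`.
-/

set_option autoImplicit false
set_option linter.unusedSectionVars false

open Set Filter Topology Function
open scoped ContDiff Manifold

noncomputable section

namespace Crest.Agent.X212.Rod53

open Crest.Agent.X212.Glue52

section Rl

variable {E : Type*} [NormedAddCommGroup E] [NormedSpace ℝ E] {H : Type*} [TopologicalSpace H]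
  {I : ModelWithCorners ℝ E H} {M : Type*} [TopologicalSpace M] [ChartedSpace H M]
  {E' : Type*} [NormedAddCommGroup E'] [NormedSpace ℝ E'] {H' : Type*} [TopologicalSpace H']
  {J : ModelWithCorners ℝ E' H'} {N : Type*} [TopologicalSpace N] [ChartedSpace H' N]
  {E'' : Type*} [NormedAddCommGroup E''] [NormedSpace ℝ E''] {H'' : Type*} [TopologicalSpace H'']
  {K : ModelWithCorners ℝ E'' H''} {P : Type*} [TopologicalSpace P] [ChartedSpace H'' P]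
  {E₃ : Type*} [NormedAddCommGroup E₃] [NormedSpace ℝ E₃] {H₃ : Type*} [TopologicalSpace H₃]
  {L : ModelWithCorners ℝ E₃ H₃} {Q : Type*} [TopologicalSpace Q] [ChartedSpace H₃ Q]
  {S : Type*}

variable (I J) in
/-- germs of `f` at `p` and of `g` at `q` differ by a local diffeomorphism -/
def Rl (f : M → S) (g : N → S) (p : M) (q : N) : Prop :=
  ∃ h : M → N, IsLocalDiffeomorphAt I J ∞ h p ∧ h p = q ∧ g ∘ h =ᶠ[𝓝 p] f

theorem Rl.refl (f : M → S) (p : M) : Rl I I f f p p := ⟨id, ld_id p, rfl, EventuallyEq.rfl⟩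

theorem Rl.eq {f : M → S} {g : N → S} {p : M} {q : N} (h : Rl I J f g p q) : f p = g q := by
  obtain ⟨h, -, rfl, e⟩ := h
  exact e.self_of_nhds.symm

theorem Rl.trans {f : M → S} {g : N → S} {k : P → S} {p : M} {q : N} {r : P}
    (h : Rl I J f g p q) (h' : Rl J K g k q r) : Rl I K f k p r := by
  obtain ⟨h, h1, rfl, e⟩ := h
  obtain ⟨h', h2, rfl, e'⟩ := h'
  refine ⟨h' ∘ h, h1.comp K P h2, rfl, ?_⟩
  filter_upwards [e, h1.contMDiffAt.continuousAt.eventually e'] with z z1 z2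
  exact z2.trans z1

theorem Rl.symm {f : M → S} {g : N → S} {p : M} {q : N} (h : Rl I J f g p q) : Rl J I g f q p := by
  obtain ⟨h, h1, rfl, e⟩ := h
  have h0 : h1.localInverse (h p) = p := h1.localInverse_left_inv h1.localInverse_mem_target
  refine ⟨h1.localInverse, h1.localInverse_isLocalDiffeomorphAt, h0, ?_⟩
  have c : Tendsto h1.localInverse (𝓝 (h p)) (𝓝 p) := by
    have := h1.localInverse_contMDiffAt.continuousAt
    rwa [ContinuousAt, h0] at this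
  filter_upwards [c.eventually e, h1.localInverse_eventuallyEq_right] with z z1 z2
  exact z1.symm.trans (congrArg g z2)

theorem ld_pd (φ : PartialDiffeomorph I J M N ∞) {x : M} (hx : x ∈ φ.source) :
    IsLocalDiffeomorphAt I J ∞ φ x := φ.isLocalDiffeomorphAt _ _ _ hx

theorem Rl.exists_pd {f : M → S} {g : N → S} {p : M} {q : N} (h : Rl I J f g p q) :
    ∃ φ : PartialDiffeomorph I J M N ∞, p ∈ φ.source ∧ φ p = q ∧ ∀ z ∈ φ.source, f z = g (φ z) := by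
  obtain ⟨k, ⟨φ, k1, k2⟩, k3, k4⟩ := h
  obtain ⟨s, hs, so, ps⟩ := eventually_nhds_iff.1 k4
  exact ⟨pdRestr φ s so, ⟨k1, ps⟩, (k2 k1).symm.trans k3, fun z hz =>
    (hs z hz.2).symm.trans (congrArg g (k2 hz.1))⟩

theorem Rl.val {U : TopologicalSpace.Opens M} {W : TopologicalSpace.Opens N} {f : M → S} {g : N → S}
    {p : U} {q : W} (h : Rl I J f g p.1 q.1) :
    Rl I J (fun z : U => f z.1) (fun z : W => g z.1) p q :=
  (Rl.trans (J := I) ⟨Subtype.val, ld_val _ p, rfl, EventuallyEq.rfl⟩ h).trans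
    (Rl.symm (J := J) ⟨Subtype.val, ld_val _ q, rfl, EventuallyEq.rfl⟩)

/-- a map that is an injective local diffeomorphism on an open set, as a partial diffeomorphism -/
def pdOn {f : M → N} {s : Set M} (hs : IsOpen s) (hn : s.Nonempty)
    (hf : ∀ x ∈ s, IsLocalDiffeomorphAt I J ∞ f x) (hi : InjOn f s) :
    PartialDiffeomorph I J M N ∞ :=
  haveI : Nonempty M := ⟨hn.choose⟩
  { toPartialEquiv := hi.toPartialEquiv f s
    open_source := hs
    open_target := by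
      rw [isOpen_iff_mem_nhds]
      rintro _ ⟨x, hx, rfl⟩
      obtain ⟨φ, h1, h2⟩ := hf x hx
      have h3 := φ.toOpenPartialHomeomorph.image_mem_nhds h1
        (inter_mem (hs.mem_nhds hx) (φ.open_source.mem_nhds h1))
      rw [h2 h1]
      refine mem_of_superset h3 ?_
      rintro _ ⟨z, hz, rfl⟩
      exact ⟨z, hz.1, h2 hz.2⟩
    contMDiffOn_toFun := fun x hx => (hf x hx).contMDiffAt.contMDiffWithinAt
    contMDiffOn_invFun := by
      rintro _ ⟨x, hx, rfl⟩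
      refine (contMDiffAt_of_comp (hf x hx) ?_).contMDiffWithinAt
      refine contMDiffAt_id.congr_of_eventuallyEq ?_
      filter_upwards [hs.mem_nhds hx] with z hz
      exact (hi.toPartialEquiv f s).left_inv hz }

@[simp] theorem pdOn_source {f : M → N} {s : Set M} (hs : IsOpen s) (hn : s.Nonempty)
    (hf : ∀ x ∈ s, IsLocalDiffeomorphAt I J ∞ f x) (hi : InjOn f s) :
    (pdOn hs hn hf hi).source = s := rfl

@[simp] theorem pdOn_target {f : M → N} {s : Set M} (hs : IsOpen s) (hn : s.Nonempty)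
    (hf : ∀ x ∈ s, IsLocalDiffeomorphAt I J ∞ f x) (hi : InjOn f s) :
    (pdOn hs hn hf hi).target = f '' s := rfl

@[simp] theorem pdOn_apply {f : M → N} {s : Set M} (hs : IsOpen s) (hn : s.Nonempty)
    (hf : ∀ x ∈ s, IsLocalDiffeomorphAt I J ∞ f x) (hi : InjOn f s) (x : M) :
    pdOn hs hn hf hi x = f x := rfl

end Rl

variable {V : Type} [NormedAddCommGroup V] [NormedSpace ℝ V] {ι S : Type}

/-- open subsets of manifolds glued along a normal form with values in the set `S` -/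
structure GO (V : Type) [NormedAddCommGroup V] [NormedSpace ℝ V] (ι S : Type) : Type 1 where
  P : ι → Pc V
  U : ∀ i, Set (P i).M
  op : ∀ i, IsOpen (U i)
  ne : ∀ i, (U i).Nonempty
  Φ : ∀ i, (P i).M → S
  inj : ∀ i, InjOn (Φ i) (U i)
  et : ∀ i j, ∀ p ∈ U i, ∀ q ∈ U j, Φ i p = Φ j q → Rl (P i).I (P j).I (Φ i) (Φ j) p q

namespace GO

variable (G : GO V ι S)

/-- the open set as a manifold -/
abbrev O (i : ι) : TopologicalSpace.Opens (G.P i).M := ⟨G.U i, G.op i⟩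

/-- the gluing data -/
def gd : GD V ι where
  P i := Pc.of (G.P i).I (G.O i) (G.P i).L
  r := Setoid.ker fun a => G.Φ a.1 a.2.1
  etale i j p q e := (Rl.val (U := G.O i) (W := G.O j) (G.et i j p.1 p.2 q.1 q.2 e)).exists_pd
  inj i _ := ⟨univ, univ_mem, fun z _ w _ e => Subtype.ext (G.inj i z.2 w.2 e)⟩

/-- the glued manifold -/
def M : Type := G.gd.M

instance : TopologicalSpace G.M := inferInstanceAs (TopologicalSpace G.gd.M)
instance : ChartedSpace V G.M := inferInstanceAs (ChartedSpace V G.gd.M)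
instance : IsManifold 𝓘(ℝ, V) ∞ G.M := inferInstanceAs (IsManifold 𝓘(ℝ, V) ∞ G.gd.M)

open Classical in
/-- the parametrisation by the `i`-th piece (junk outside `U i`) -/
def pm (i : ι) (p : (G.P i).M) : G.M :=
  if h : p ∈ G.U i then G.gd.inc i (⟨p, h⟩ : G.O i)
  else G.gd.inc i (⟨(G.ne i).choose, (G.ne i).choose_spec⟩ : G.O i)

theorem pm_of_mem {i : ι} {p : (G.P i).M} (h : p ∈ G.U i) :
    G.pm i p = G.gd.inc i (⟨p, h⟩ : G.O i) := dif_pos h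

theorem pm_eq {i j : ι} {p : (G.P i).M} {q : (G.P j).M} (hp : p ∈ G.U i) (hq : q ∈ G.U j) :
    G.pm i p = G.pm j q ↔ G.Φ i p = G.Φ j q := by
  rw [G.pm_of_mem hp, G.pm_of_mem hq]
  exact G.gd.inc_eq_inc

theorem ld_pm {i : ι} {p : (G.P i).M} (hp : p ∈ G.U i) :
    IsLocalDiffeomorphAt (G.P i).I 𝓘(ℝ, V) ∞ (G.pm i) p := by
  refine ld_of_comp (ld_val (G.O i) ⟨p, hp⟩) (ld_congr (G.gd.ld i ⟨p, hp⟩) ?_)
  exact Eventually.of_forall fun z => G.pm_of_mem z.2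

theorem surj (x : G.M) : ∃ i, ∃ p ∈ G.U i, G.pm i p = x := by
  obtain ⟨i, p, rfl⟩ := G.gd.surj x
  exact ⟨i, p.1, p.2, G.pm_of_mem p.2⟩

/-- the `i`-th piece as a partial diffeomorphism with source `U i` -/
def ch (i : ι) : PartialDiffeomorph (G.P i).I 𝓘(ℝ, V) (G.P i).M G.M ∞ :=
  pdOn (G.op i) (G.ne i) (fun _ hp => G.ld_pm hp) fun _ hp _ hq e => G.inj i hp hq ((G.pm_eq hp hq).1 e)

@[simp] theorem ch_source (i : ι) : (G.ch i).source = G.U i := rfl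
@[simp] theorem ch_target (i : ι) : (G.ch i).target = G.pm i '' G.U i := rfl
@[simp] theorem ch_apply (i : ι) (p : (G.P i).M) : G.ch i p = G.pm i p := rfl

/-- maps out of the glued manifold -/
def lift {Z : Sort*} (g : ∀ i, (G.P i).M → Z)
    (h : ∀ i j, ∀ p ∈ G.U i, ∀ q ∈ G.U j, G.Φ i p = G.Φ j q → g i p = g j q) : G.M → Z :=
  G.gd.lift (fun i p => g i p.1) fun i j p q e => h i j p.1 p.2 q.1 q.2 e

theorem lift_pm {Z : Sort*} (g : ∀ i, (G.P i).M → Z)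
    (h : ∀ i j, ∀ p ∈ G.U i, ∀ q ∈ G.U j, G.Φ i p = G.Φ j q → g i p = g j q) {i : ι}
    {p : (G.P i).M} (hp : p ∈ G.U i) : G.lift g h (G.pm i p) = g i p := by
  rw [G.pm_of_mem hp]
  rfl

/-- the normal form of a point -/
def nf : G.M → S := G.lift G.Φ fun _ _ _ _ _ _ e => e

theorem nf_pm {i : ι} {p : (G.P i).M} (hp : p ∈ G.U i) : G.nf (G.pm i p) = G.Φ i p :=
  G.lift_pm _ _ hp

theorem nf_injective : Injective G.nf := fun x y e => by
  obtain ⟨i, p, hp, rfl⟩ := G.surj x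
  obtain ⟨j, q, hq, rfl⟩ := G.surj y
  rw [G.nf_pm hp, G.nf_pm hq] at e
  exact (G.pm_eq hp hq).2 e

theorem continuous_of {Z : Type*} [TopologicalSpace Z] {g : G.M → Z}
    (h : ∀ i, ContinuousOn (g ∘ G.pm i) (G.U i)) : Continuous g := by
  refine G.gd.continuous_iff.2 fun i => ?_
  refine ((h i).comp_continuous continuous_subtype_val fun z : G.O i => z.2).congr fun z => ?_
  exact congrArg g (G.pm_of_mem z.2)

section Out

variable {E' : Type*} [NormedAddCommGroup E'] [NormedSpace ℝ E'] {H' : Type*} [TopologicalSpace H']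
  {J : ModelWithCorners ℝ E' H'} {N : Type*} [TopologicalSpace N] [ChartedSpace H' N]

theorem contMDiffAt_of {g : G.M → N} {i : ι} {p : (G.P i).M} (hp : p ∈ G.U i)
    (h : ContMDiffAt (G.P i).I J ∞ (g ∘ G.pm i) p) : ContMDiffAt 𝓘(ℝ, V) J ∞ g (G.pm i p) :=
  contMDiffAt_of_comp (G.ld_pm hp) h

theorem contMDiff_of {g : G.M → N}
    (h : ∀ i, ∀ p ∈ G.U i, ContMDiffAt (G.P i).I J ∞ (g ∘ G.pm i) p) : ContMDiff 𝓘(ℝ, V) J ∞ g :=
  fun x => by
    obtain ⟨i, p, hp, rfl⟩ := G.surj x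
    exact G.contMDiffAt_of hp (h i p hp)

theorem ld_of {g : G.M → N} {i : ι} {p : (G.P i).M} (hp : p ∈ G.U i)
    (h : IsLocalDiffeomorphAt (G.P i).I J ∞ (g ∘ G.pm i) p) :
    IsLocalDiffeomorphAt 𝓘(ℝ, V) J ∞ g (G.pm i p) := ld_of_comp (G.ld_pm hp) h

end Out

theorem isOpen_image {i : ι} {s : Set (G.P i).M} (hs : IsOpen s) (h : s ⊆ G.U i) :
    IsOpen (G.pm i '' s) := (G.ch i).toOpenPartialHomeomorph.isOpen_image_of_subset_source hs h

theorem continuousOn_pm (i : ι) : ContinuousOn (G.pm i) (G.U i) :=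
  (G.ch i).contMDiffOn_toFun.continuousOn

/-- two points of one Hausdorff piece are separated -/
theorem sep_of_piece {i : ι} [T2Space (G.P i).M] {p q : (G.P i).M} (hp : p ∈ G.U i) (hq : q ∈ G.U i)
    (h : G.pm i p ≠ G.pm i q) :
    ∃ u w : Set G.M, IsOpen u ∧ IsOpen w ∧ G.pm i p ∈ u ∧ G.pm i q ∈ w ∧ Disjoint u w := by
  obtain ⟨u, w, uo, wo, pu, qw, d⟩ := t2_separation (show p ≠ q from fun e => h (e ▸ rfl))
  refine ⟨G.pm i '' (u ∩ G.U i), G.pm i '' (w ∩ G.U i), G.isOpen_image (uo.inter (G.op i)) inter_subset_right,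
    G.isOpen_image (wo.inter (G.op i)) inter_subset_right, ⟨p, ⟨pu, hp⟩, rfl⟩, ⟨q, ⟨qw, hq⟩, rfl⟩,
    disjoint_left.2 ?_⟩
  rintro _ ⟨a, ha, rfl⟩ ⟨b, hb, e⟩
  have := G.inj i hb.2 ha.2 ((G.pm_eq hb.2 ha.2).1 e)
  exact disjoint_left.1 d ha.1 (this ▸ hb.1)

end GO

end Crest.Agent.X212.Rod53
end
end

-- ▼ part X212/Rod53/Alg
section

/-!
# X212 / Rod53, part Alg (helper53): the explicit transition maps of the rod model

* `gl a b : Circle × ℂ → Circle × ℂ`, `(u, ζ) ↦ (d^a₁ u^b₁, ‖ζ‖ d^a₂ u^b₂)`, `d = dir ζ` (filling chart → tube);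
* `tw m`, `cj`, `iv` : changes of the basis `(a, b)` that extend over the core;
* `hyp (z₁, z₂) = ((dir z₁, 2‖z₁‖ z₂), ‖z₁‖² - ‖z₂‖²)` (vertex chart → rod chart) and its inverse `hypI`.
-/

set_option autoImplicit false
set_option linter.unusedSectionVars false

open Set Filter Topology Function
open scoped ContDiff Manifold ComplexConjugate

noncomputable section

namespace Crest.Agent.X212.Rod53

open Crest.Agent.X212.Glue52

/-- integer vectors: first coordinate = longitude, second = meridian -/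
abbrev Z2 : Type := ℤ × ℤ

/-- the determinant -/
def dt (a b : Z2) : ℤ := a.1 * b.2 - a.2 * b.1

/-- `(a, b)` is a basis -/
def Uni (a b : Z2) : Prop := dt a b = 1 ∨ dt a b = -1

/-- equal up to sign -/
def PM (a b : Z2) : Prop := a = b ∨ a = -b

theorem Uni.sq {a b : Z2} (h : Uni a b) : dt a b * dt a b = 1 := by
  rcases h with h | h <;> rw [h] <;> norm_num

theorem dt_swap (a b : Z2) : dt b a = -dt a b := by unfold dt; ring
theorem dt_self (a : Z2) : dt a a = 0 := by unfold dt; ring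
theorem dt_neg_left (a b : Z2) : dt (-a) b = -dt a b := by simp [dt]; ring
theorem dt_neg_right (a b : Z2) : dt a (-b) = -dt a b := by simp [dt]; ring
theorem dt_zero_left (b : Z2) : dt 0 b = 0 := by simp [dt]
theorem dt_add_smul (v a b : Z2) (m : ℤ) : dt v (b + m • a) = dt v b + m * dt v a := by
  simp [dt]; ring

theorem Uni.symm {a b : Z2} (h : Uni a b) : Uni b a := by
  unfold Uni at *; rw [dt_swap a b]; omega
theorem Uni.neg_left {a b : Z2} (h : Uni a b) : Uni (-a) b := by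
  unfold Uni at *; rw [dt_neg_left]; omega
theorem Uni.neg_right {a b : Z2} (h : Uni a b) : Uni a (-b) := h.symm.neg_left.symm
theorem Uni.ne_zero {a b : Z2} (h : Uni a b) : a ≠ 0 := by
  rintro rfl
  unfold Uni at h; rw [dt_zero_left] at h; omega

theorem PM.refl (a : Z2) : PM a a := Or.inl rfl
theorem PM.symm {a b : Z2} (h : PM a b) : PM b a := by
  rcases h with rfl | rfl
  · exact Or.inl rfl
  · exact Or.inr (neg_neg _).symm
theorem PM.trans {a b c : Z2} (h : PM a b) (h' : PM b c) : PM a c := by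
  rcases h with rfl | rfl
  · exact h'
  · rcases h' with rfl | rfl
    · exact Or.inr rfl
    · exact Or.inl (neg_neg _)
theorem PM.dt_eq {v a : Z2} (h : PM v a) : dt v a = 0 := by
  rcases h with rfl | rfl
  · exact dt_self _
  · rw [dt_neg_left, dt_self, neg_zero]
theorem PM.uni {v a b : Z2} (h : PM v a) (hu : Uni a b) : Uni v b := by
  rcases h with rfl | rfl
  · exact hu
  · exact hu.neg_left
theorem PM.ne_zero {v a b : Z2} (h : PM v a) (hu : Uni a b) : v ≠ 0 := (h.uni hu).ne_zero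

/-- a second complement differs by a sign and a multiple of `a` -/
theorem Uni.compl {a b b' : Z2} (h : Uni a b) (h' : Uni a b') : ∃ m : ℤ, PM b' (b + m • a) := by
  have h1 := h.sq
  have key : b' = (dt a b * dt a b') • b + (dt a b * dt b' b) • a := by
    ext
    · simp only [dt, Prod.fst_add, Prod.smul_fst, smul_eq_mul] at h1 ⊢
      linear_combination (-b'.1) * h1
    · simp only [dt, Prod.snd_add, Prod.smul_snd, smul_eq_mul] at h1 ⊢
      linear_combination (-b'.2) * h1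
  have h2 : dt a b * dt a b' = 1 ∨ dt a b * dt a b' = -1 := by
    rcases h with h | h <;> rcases h' with h' | h' <;> rw [h, h'] <;> norm_num
  rcases h2 with h2 | h2
  · exact ⟨dt a b * dt b' b, Or.inl (by rw [h2, one_smul] at key; exact key)⟩
  · refine ⟨-(dt a b * dt b' b), Or.inr ?_⟩
    rw [h2] at key
    rw [neg_add, neg_smul, neg_neg, ← neg_one_smul ℤ b]
    exact key

theorem zpow_uni_injective {n : ℤ} (h : n = 1 ∨ n = -1) {u w : Circle} (e : u ^ n = w ^ n) : u = w := by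
  rcases h with rfl | rfl
  · simpa using e
  · simpa using e

/-- the model of `Circle × ℂ` -/
abbrev IT : ModelWithCorners ℝ (EuclideanSpace ℝ (Fin 1) × ℂ) (ModelProd (EuclideanSpace ℝ (Fin 1)) ℂ) :=
  (𝓡 1).prod 𝓘(ℝ, ℂ)

/-- the model of `(Circle × ℂ) × ℝ` -/
abbrev IR := IT.prod 𝓘(ℝ, ℝ)

/-- the model of `ℂ × ℂ` -/
abbrev IV : ModelWithCorners ℝ (ℂ × ℂ) (ℂ × ℂ) := 𝓘(ℝ, ℂ × ℂ)

section Sm

variable {E : Type*} [NormedAddCommGroup E] [NormedSpace ℝ E] {H : Type*} [TopologicalSpace H]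
  {I : ModelWithCorners ℝ E H} {M : Type*} [TopologicalSpace M] [ChartedSpace H M] {x : M}

theorem cm_zpow {f : M → Circle} (h : ContMDiffAt I (𝓡 1) ∞ f x) (n : ℤ) :
    ContMDiffAt I (𝓡 1) ∞ (fun y => f y ^ n) x := by
  rcases n with n | n
  · simpa using h.pow n
  · simpa using (h.pow (n + 1)).inv

theorem cm_coe {f : M → Circle} (h : ContMDiffAt I (𝓡 1) ∞ f x) :
    ContMDiffAt I 𝓘(ℝ, ℂ) ∞ (fun y => (f y : ℂ)) x := (contMDiff_circle_coe _).comp x h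

theorem cm_dir {f : M → ℂ} (h : ContMDiffAt I 𝓘(ℝ, ℂ) ∞ f x) (h0 : f x ≠ 0) :
    ContMDiffAt I (𝓡 1) ∞ (fun y => dir (f y)) x := (contMDiffAt_dir h0).comp x h

theorem cm_norm {f : M → ℂ} (h : ContMDiffAt I 𝓘(ℝ, ℂ) ∞ f x) (h0 : f x ≠ 0) :
    ContMDiffAt I 𝓘(ℝ, ℝ) ∞ (fun y => ‖f y‖) x := (contDiffAt_norm_c h0).comp_contMDiffAt h

theorem cm_nsq {f : M → ℂ} (h : ContMDiffAt I 𝓘(ℝ, ℂ) ∞ f x) :
    ContMDiffAt I 𝓘(ℝ, ℝ) ∞ (fun y => ‖f y‖ ^ 2) x :=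
  (contDiff_norm_sq ℝ (E := ℂ) (n := ∞)).contDiffAt.comp_contMDiffAt h

theorem cm_mul {f g : M → ℂ} (hf : ContMDiffAt I 𝓘(ℝ, ℂ) ∞ f x) (hg : ContMDiffAt I 𝓘(ℝ, ℂ) ∞ g x) :
    ContMDiffAt I 𝓘(ℝ, ℂ) ∞ (fun y => f y * g y) x :=
  (contDiff_mul (𝕜 := ℝ) (𝔸 := ℂ)).contDiffAt.comp_contMDiffAt (hf.prodMk_space hg)

theorem cm_ofReal {f : M → ℝ} (h : ContMDiffAt I 𝓘(ℝ, ℝ) ∞ f x) :
    ContMDiffAt I 𝓘(ℝ, ℂ) ∞ (fun y => (f y : ℂ)) x :=
  Complex.ofRealCLM.contDiff.contDiffAt.comp_contMDiffAt h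

theorem cm_conj {f : M → ℂ} (h : ContMDiffAt I 𝓘(ℝ, ℂ) ∞ f x) :
    ContMDiffAt I 𝓘(ℝ, ℂ) ∞ (fun y => conj (f y)) x :=
  Complex.conjCLE.contDiff.contDiffAt.comp_contMDiffAt h

theorem cm_fun {f : M → ℝ} {g : ℝ → ℝ} (hg : ContDiffAt ℝ ∞ g (f x))
    (h : ContMDiffAt I 𝓘(ℝ, ℝ) ∞ f x) : ContMDiffAt I 𝓘(ℝ, ℝ) ∞ (fun y => g (f y)) x :=
  hg.comp_contMDiffAt h

end Sm

theorem dir_zero : dir 0 = 1 := dif_pos rfl

theorem norm_polar {r : ℝ} (hr : 0 ≤ r) (u : Circle) : ‖(r : ℂ) * u‖ = r := by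
  rw [norm_mul, Circle.norm_coe, mul_one, Complex.norm_real, Real.norm_of_nonneg hr]

theorem dir_mul_circle {z : ℂ} (h : z ≠ 0) (u : Circle) : dir (z * u) = dir z * u := by
  conv_lhs => rw [← norm_mul_dir z, mul_assoc, ← Circle.coe_mul]
  exact dir_mul (norm_pos_iff.2 h) _

theorem dir_pos_mul {r : ℝ} (hr : 0 < r) (z : ℂ) : dir (r * z) = dir z := by
  by_cases h : z = 0
  · rw [h, mul_zero]
  · conv_lhs => rw [← norm_mul_dir z, ← mul_assoc, ← Complex.ofReal_mul]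
    exact dir_mul (mul_pos hr (norm_pos_iff.2 h)) _

theorem dir_conj (z : ℂ) : dir (conj z) = (dir z)⁻¹ := by
  by_cases h : z = 0
  · simp [h, dir_zero]
  · conv_lhs => rw [← norm_mul_dir z, map_mul, Complex.conj_ofReal, ← Circle.coe_inv_eq_conj]
    exact dir_mul (norm_pos_iff.2 h) _

theorem eq_of_dir {z w : ℂ} (h1 : ‖z‖ = ‖w‖) (h2 : dir z = dir w) : z = w := by
  rw [← norm_mul_dir z, ← norm_mul_dir w, h1, h2]

/-- filling chart → tube: the circle `dir ζ` runs along `a`, the circle `u` along `b` -/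
def gl (a b : Z2) (w : Circle × ℂ) : Circle × ℂ :=
  (dir w.2 ^ a.1 * w.1 ^ b.1, (‖w.2‖ : ℂ) * (dir w.2 ^ a.2 * w.1 ^ b.2 : Circle))

theorem norm_gl (a b : Z2) (w : Circle × ℂ) : ‖(gl a b w).2‖ = ‖w.2‖ := norm_polar (norm_nonneg _) _

theorem gl_ne {a b : Z2} {w : Circle × ℂ} : (gl a b w).2 ≠ 0 ↔ w.2 ≠ 0 := by
  rw [← norm_ne_zero_iff, norm_gl, norm_ne_zero_iff]

theorem dir_gl (a b : Z2) {w : Circle × ℂ} (h : w.2 ≠ 0) :
    dir (gl a b w).2 = dir w.2 ^ a.2 * w.1 ^ b.2 := dir_mul (norm_pos_iff.2 h) _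

theorem gl_polar (a b : Z2) (x y : Circle) {r : ℝ} (hr : 0 < r) :
    gl a b (y, (r : ℂ) * x) = (x ^ a.1 * y ^ b.1, (r : ℂ) * (x ^ a.2 * y ^ b.2 : Circle)) := by
  simp only [gl, dir_mul hr, norm_polar hr.le]

theorem gl_gl (a b a' b' : Z2) {w : Circle × ℂ} (h : w.2 ≠ 0) :
    gl a b (gl a' b' w) = gl (a'.2 • a + a'.1 • b) (b'.2 • a + b'.1 • b) w := by
  have key : ∀ (d u : Circle) (i j : ℤ), (d ^ a'.2 * u ^ b'.2) ^ i * (d ^ a'.1 * u ^ b'.1) ^ j =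
      d ^ (a'.2 * i + a'.1 * j) * u ^ (b'.2 * i + b'.1 * j) := fun d u i j => by
    simp only [mul_zpow, ← zpow_mul, zpow_add]
    exact mul_mul_mul_comm _ _ _ _
  rw [gl, dir_gl _ _ h, norm_gl]
  exact Prod.ext (key _ _ _ _) (congrArg (fun t : Circle => (‖w.2‖ : ℂ) * t) (key _ _ _ _))

theorem gl_id (w : Circle × ℂ) : gl (0, 1) (1, 0) w = w := by
  simp [gl, norm_mul_dir]

theorem cm_gl (a b : Z2) {w : Circle × ℂ} (h : w.2 ≠ 0) : ContMDiffAt IT IT ∞ (gl a b) w := by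
  have h1 : ContMDiffAt IT (𝓡 1) ∞ (fun w : Circle × ℂ => dir w.2) w := cm_dir contMDiffAt_snd h
  exact ((cm_zpow h1 _).mul (cm_zpow contMDiffAt_fst _)).prodMk
    (cm_mul (cm_ofReal (cm_norm contMDiffAt_snd h)) (cm_coe ((cm_zpow h1 _).mul (cm_zpow contMDiffAt_fst _))))

/-- the inverse of `gl a b` -/
def glI (a b : Z2) : Circle × ℂ → Circle × ℂ :=
  gl (dt a b * a.1, -(dt a b * b.1)) (-(dt a b * a.2), dt a b * b.2)

theorem gl_glI {a b : Z2} (hu : Uni a b) {w : Circle × ℂ} (h : w.2 ≠ 0) : gl a b (glI a b w) = w := by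
  have h1 := hu.sq
  rw [glI, gl_gl _ _ _ _ h]
  convert gl_id w using 2 <;> ext <;> simp only [dt, Prod.fst_add, Prod.smul_fst, Prod.snd_add,
    Prod.smul_snd, smul_eq_mul] at h1 ⊢ <;> first | ring1 | linear_combination h1

theorem glI_gl {a b : Z2} (hu : Uni a b) {w : Circle × ℂ} (h : w.2 ≠ 0) : glI a b (gl a b w) = w := by
  have h1 := hu.sq
  rw [glI, gl_gl _ _ _ _ h]
  convert gl_id w using 2 <;> ext <;> simp only [dt, Prod.fst_add, Prod.smul_fst, Prod.snd_add,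
    Prod.smul_snd, smul_eq_mul] at h1 ⊢ <;> first | ring1 | linear_combination h1

theorem isOpen_ne2 : IsOpen {w : Circle × ℂ | w.2 ≠ 0} := isOpen_ne.preimage continuous_snd

theorem ld_gl {a b : Z2} (hu : Uni a b) {w : Circle × ℂ} (h : w.2 ≠ 0) :
    IsLocalDiffeomorphAt IT IT ∞ (gl a b) w :=
  ld_of_inverse (g := glI a b) isOpen_ne2 isOpen_ne2 h (fun _ hz => (cm_gl _ _ hz).contMDiffWithinAt)
    (fun _ hz => (cm_gl _ _ hz).contMDiffWithinAt) (fun _ hz => gl_ne.2 hz) (fun _ hz => gl_ne.2 hz)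
    (fun _ hz => glI_gl hu hz) fun _ hz => gl_glI hu hz

theorem gl_inj {a b : Z2} (hu : Uni a b) {w w' : Circle × ℂ} (h : w.2 ≠ 0) (h' : w'.2 ≠ 0)
    (e : gl a b w = gl a b w') : w = w' := by
  rw [← glI_gl hu h, e, glI_gl hu h']

/-- twist -/
def tw (m : ℤ) (w : Circle × ℂ) : Circle × ℂ := (w.1, w.2 * (w.1 ^ m : Circle))
/-- conjugation of the disc -/
def cj (w : Circle × ℂ) : Circle × ℂ := (w.1, conj w.2)
/-- reversal of the core -/
def iv (w : Circle × ℂ) : Circle × ℂ := (w.1⁻¹, w.2)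

theorem tw_ne {m : ℤ} {w : Circle × ℂ} : (tw m w).2 = 0 ↔ w.2 = 0 :=
  mul_eq_zero.trans (or_iff_left (Circle.coe_ne_zero _))
theorem cj_ne {w : Circle × ℂ} : (cj w).2 = 0 ↔ w.2 = 0 := by simp [cj]

theorem ld_tw (m : ℤ) : IsLocalDiffeomorph IT IT ∞ (tw m) := by
  have h : ∀ m, ContMDiff IT IT ∞ (tw m) := fun m w =>
    contMDiffAt_fst.prodMk (cm_mul contMDiffAt_snd (cm_coe (cm_zpow contMDiffAt_fst _)))
  have k : ∀ m w, tw (-m) (tw m w) = w := fun m w => by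
    simp only [tw]
    rw [mul_assoc, ← Circle.coe_mul, ← zpow_add, add_neg_cancel, zpow_zero, Circle.coe_one, mul_one]
  refine (diffeoOf _ (tw (-m)) (h m) (h _) (k m) fun w => ?_).isLocalDiffeomorph
  simpa using k (-m) w

theorem ld_cj : IsLocalDiffeomorph IT IT ∞ cj := by
  have h : ContMDiff IT IT ∞ cj := fun w => contMDiffAt_fst.prodMk (cm_conj contMDiffAt_snd)
  exact (diffeoOf _ cj h h (fun w => by simp [cj]) fun w => by simp [cj]).isLocalDiffeomorph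

theorem ld_iv : IsLocalDiffeomorph IT IT ∞ iv := by
  have h : ContMDiff IT IT ∞ iv := fun w => contMDiffAt_fst.inv.prodMk contMDiffAt_snd
  exact (diffeoOf _ iv h h (fun w => by simp [iv]) fun w => by simp [iv]).isLocalDiffeomorph

theorem gl_tw (a b : Z2) (m : ℤ) {w : Circle × ℂ} (h : w.2 ≠ 0) :
    gl a b (tw m w) = gl a (b + m • a) w := by
  have key : ∀ (d u : Circle) (i j : ℤ), (d * u ^ m) ^ i * u ^ j = d ^ i * u ^ (j + m * i) :=
    fun d u i j => by rw [mul_zpow, ← zpow_mul, mul_assoc, ← zpow_add, add_comm]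
  have h1 : ‖w.2 * (w.1 ^ m : Circle)‖ = ‖w.2‖ := by rw [norm_mul, Circle.norm_coe, mul_one]
  simp only [gl, tw, dir_mul_circle h, h1, key]
  rfl

theorem gl_cj (a b : Z2) (w : Circle × ℂ) : gl a b (cj w) = gl (-a) b w := by
  simp [gl, cj, dir_conj]

theorem gl_iv (a b : Z2) (w : Circle × ℂ) : gl a b (iv w) = gl a (-b) w := by
  simp [gl, iv]

/-! ### the hyperbola chart -/

/-- vertex chart → rod chart, on `z₁ ≠ 0` -/
def hyp (z : ℂ × ℂ) : (Circle × ℂ) × ℝ :=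
  ((dir z.1, ((2 * ‖z.1‖ : ℝ) : ℂ) * z.2), ‖z.1‖ ^ 2 - ‖z.2‖ ^ 2)

/-- `‖z₁‖²` as a function on the rod chart -/
def rho (w : (Circle × ℂ) × ℝ) : ℝ := (w.2 + √(w.2 ^ 2 + ‖w.1.2‖ ^ 2)) / 2

/-- rod chart → vertex chart -/
def hypI (w : (Circle × ℂ) × ℝ) : ℂ × ℂ :=
  ((√(rho w) : ℂ) * w.1.1, (((2 * √(rho w))⁻¹ : ℝ) : ℂ) * w.1.2)

/-- the range of `hyp` -/
def hypT : Set ((Circle × ℂ) × ℝ) := {w | w.1.2 ≠ 0 ∨ 0 < w.2}

theorem isOpen_hypT : IsOpen hypT :=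
  (isOpen_ne.preimage (continuous_snd.comp continuous_fst)).union
    (isOpen_lt continuous_const continuous_snd)

theorem rad_pos {w : (Circle × ℂ) × ℝ} (h : w ∈ hypT) : 0 < w.2 ^ 2 + ‖w.1.2‖ ^ 2 := by
  rcases h with h | h
  · have := norm_pos_iff.2 h
    positivity
  · positivity

theorem rho_pos {w : (Circle × ℂ) × ℝ} (h : w ∈ hypT) : 0 < rho w := by
  unfold rho
  rcases h with h | h
  · have h1 := norm_pos_iff.2 h
    have h2 : |w.2| < √(w.2 ^ 2 + ‖w.1.2‖ ^ 2) := Real.lt_sqrt_of_sq_lt (by rw [sq_abs]; nlinarith)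
    have := neg_abs_le w.2
    linarith
  · have := Real.sqrt_nonneg (w.2 ^ 2 + ‖w.1.2‖ ^ 2)
    linarith

theorem rho_eq (w : (Circle × ℂ) × ℝ) : 4 * rho w ^ 2 - 4 * w.2 * rho w = ‖w.1.2‖ ^ 2 := by
  have := Real.sq_sqrt (show 0 ≤ w.2 ^ 2 + ‖w.1.2‖ ^ 2 by positivity)
  unfold rho
  nlinarith

theorem norm_hyp (z : ℂ × ℂ) : ‖(hyp z).1.2‖ = 2 * ‖z.1‖ * ‖z.2‖ := by
  simp [hyp]

theorem rad_hyp (z : ℂ × ℂ) : √((hyp z).2 ^ 2 + ‖(hyp z).1.2‖ ^ 2) = ‖z.1‖ ^ 2 + ‖z.2‖ ^ 2 := by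
  rw [norm_hyp, ← Real.sqrt_sq (show 0 ≤ ‖z.1‖ ^ 2 + ‖z.2‖ ^ 2 by positivity)]
  congr 1
  simp only [hyp]
  ring

theorem rho_hyp (z : ℂ × ℂ) : rho (hyp z) = ‖z.1‖ ^ 2 := by
  rw [rho, rad_hyp]
  simp only [hyp]
  ring

theorem hyp_ne {z : ℂ × ℂ} (h : z.1 ≠ 0) : (hyp z).1.2 = 0 ↔ z.2 = 0 := by
  simp [hyp, h]

theorem hyp_mem {z : ℂ × ℂ} (h : z.1 ≠ 0) : hyp z ∈ hypT := by
  by_cases h2 : z.2 = 0
  · right
    simp [hyp, h2, h]
  · exact Or.inl fun e => h2 ((hyp_ne h).1 e)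

theorem hypI_ne {w : (Circle × ℂ) × ℝ} (h : w ∈ hypT) : (hypI w).1 ≠ 0 :=
  mul_ne_zero (by exact_mod_cast (Real.sqrt_pos.2 (rho_pos h)).ne') w.1.1.coe_ne_zero

theorem hypI_hyp {z : ℂ × ℂ} (h : z.1 ≠ 0) : hypI (hyp z) = z := by
  have h1 : (‖z.1‖ : ℂ) ≠ 0 := by exact_mod_cast norm_ne_zero_iff.2 h
  rw [hypI, rho_hyp, Real.sqrt_sq (norm_nonneg _)]
  refine Prod.ext (norm_mul_dir _) ?_
  simp only [hyp]
  push_cast
  field_simp

theorem hyp_hypI {w : (Circle × ℂ) × ℝ} (h : w ∈ hypT) : hyp (hypI w) = w := by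
  have h0 := rho_pos h
  have h1 := Real.sqrt_pos.2 h0
  have h2 : (√(rho w) : ℂ) ≠ 0 := by exact_mod_cast h1.ne'
  have h3 := Real.sq_sqrt h0.le
  have h4 := rho_eq w
  refine Prod.ext (Prod.ext (dir_mul h1 _) ?_) ?_
  · simp only [hyp, hypI, norm_polar h1.le]
    push_cast
    field_simp
  · simp only [hyp, hypI, norm_polar h1.le]
    rw [norm_mul, Complex.norm_real, Real.norm_of_nonneg (by positivity), mul_pow, inv_pow, mul_pow, h3]
    field_simp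
    linarith

theorem cm_hyp {z : ℂ × ℂ} (h : z.1 ≠ 0) : ContMDiffAt IV IR ∞ hyp z := by
  have f1 : ContMDiffAt IV 𝓘(ℝ, ℂ) ∞ (fun z : ℂ × ℂ => z.1) z := contDiff_fst.contMDiff.contMDiffAt
  have f2 : ContMDiffAt IV 𝓘(ℝ, ℂ) ∞ (fun z : ℂ × ℂ => z.2) z := contDiff_snd.contMDiff.contMDiffAt
  exact ((cm_dir f1 h).prodMk (cm_mul (cm_ofReal (cm_fun (g := fun t => 2 * t) (by fun_prop)
    (cm_norm f1 h))) f2)).prodMk ((cm_nsq f1).sub (cm_nsq f2))

theorem cm_rho {w : (Circle × ℂ) × ℝ} (h : w ∈ hypT) : ContMDiffAt IR 𝓘(ℝ, ℝ) ∞ rho w := by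
  have f1 : ContMDiffAt IR 𝓘(ℝ, ℝ) ∞ (fun w : (Circle × ℂ) × ℝ => w.2 ^ 2 + ‖w.1.2‖ ^ 2) w :=
    (cm_fun (g := fun t => t ^ 2) (by fun_prop) contMDiffAt_snd).add
      (cm_nsq (contMDiffAt_snd.comp w contMDiffAt_fst))
  exact cm_fun (g := fun t => t / 2) (by fun_prop)
    (contMDiffAt_snd.add (cm_fun (Real.contDiffAt_sqrt (rad_pos h).ne') f1))

theorem cm_hypI {w : (Circle × ℂ) × ℝ} (h : w ∈ hypT) : ContMDiffAt IR IV ∞ hypI w := by
  have h1 := Real.sqrt_pos.2 (rho_pos h)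
  have f1 : ContMDiffAt IR 𝓘(ℝ, ℝ) ∞ (fun w => √(rho w)) w :=
    cm_fun (Real.contDiffAt_sqrt (rho_pos h).ne') (cm_rho h)
  have f2 : ContMDiffAt IR 𝓘(ℝ, ℝ) ∞ (fun w => (2 * √(rho w))⁻¹) w :=
    cm_fun (g := fun t => (2 * t)⁻¹) (ContDiffAt.inv (by fun_prop) (by positivity)) f1
  exact (cm_mul (cm_ofReal f1) (cm_coe (contMDiffAt_fst.comp w contMDiffAt_fst))).prodMk_space
    (cm_mul (cm_ofReal f2) (contMDiffAt_snd.comp w contMDiffAt_fst))

theorem ld_hyp {z : ℂ × ℂ} (h : z.1 ≠ 0) : IsLocalDiffeomorphAt IV IR ∞ hyp z :=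
  ld_of_inverse (g := hypI) (s := {z | z.1 ≠ 0}) (isOpen_ne.preimage continuous_fst) isOpen_hypT h
    (fun _ hz => (cm_hyp hz).contMDiffWithinAt) (fun _ hz => (cm_hypI hz).contMDiffWithinAt)
    (fun _ hz => hyp_mem hz) (fun _ hz => hypI_ne hz) (fun _ hz => hypI_hyp hz) fun _ hz => hyp_hypI hz

end Crest.Agent.X212.Rod53
end
end

-- ▼ part X212/Rod53/Defs
section

/-!
# X212 / Rod53, part Defs (helper53): the rod manifold `X T v`

`T : Tb IN N` is a smooth tube `τ : Circle × ℂ → N` in a three-manifold, `v : ℝ → ℤ × ℤ` the rod structure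
(`v x = ± a` along a rod of slope `a`, `v c = 0` at a vertex).  `X T v` is glued from
* the exterior chart `(N ∖ core) × ℝ`,
* the rod charts `(a, b)` on `Ur v a = {ζ ≠ 0 ∨ x ∈ Jr v a} ⊆ (Circle × ℂ) × ℝ`,
* the vertex charts `(a, b, c)` on `Uv v a b c = {z₁ z₂ ≠ 0 ∨ tm c z ∈ Jv v a b c} ⊆ ℂ × ℂ`,
for ALL bases `(a, b)` and ALL centres `c`.
-/

set_option autoImplicit false
set_option linter.unusedSectionVars false

open Set Filter Topology Function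
open scoped ContDiff Manifold ComplexConjugate

noncomputable section

namespace Crest.Agent.X212.Rod53

open Crest.Agent.X212.Glue52

/-- Euclidean four-space -/
abbrev E4 : Type := EuclideanSpace ℝ (Fin 4)

/-- the rods of slope `± a` -/
def Jr (v : ℝ → Z2) (a : Z2) : Set ℝ := interior {x | PM (v x) a}

/-- the part of the axis that looks like a vertex `(a, b)` at `c` -/
def Jv (v : ℝ → Z2) (a b : Z2) (c : ℝ) : Set ℝ :=
  interior {x | (x < c → PM (v x) a) ∧ (x = c → v x = 0) ∧ (c < x → PM (v x) b)}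

/-- time in a vertex chart -/
def tm (c : ℝ) (z : ℂ × ℂ) : ℝ := c + (‖z.1‖ ^ 2 - ‖z.2‖ ^ 2)

/-- the domain of a rod chart -/
def Ur (v : ℝ → Z2) (a : Z2) : Set ((Circle × ℂ) × ℝ) := {w | w.1.2 ≠ 0 ∨ w.2 ∈ Jr v a}

/-- the domain of a vertex chart -/
def Uv (v : ℝ → Z2) (a b : Z2) (c : ℝ) : Set (ℂ × ℂ) :=
  {z | (z.1 ≠ 0 ∧ z.2 ≠ 0) ∨ tm c z ∈ Jv v a b c}

/-- vertex chart → rod chart `(b, a)` of the right rod, on `z₁ ≠ 0` -/
def hR (c : ℝ) (z : ℂ × ℂ) : (Circle × ℂ) × ℝ := ((hyp z).1, tm c z)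

/-- vertex chart → rod chart `(a, b)` of the left rod, on `z₂ ≠ 0` -/
def hL (c : ℝ) (z : ℂ × ℂ) : (Circle × ℂ) × ℝ := ((hyp z.swap).1, tm c z)

section Dom

variable {v : ℝ → Z2} {a b : Z2} {c x : ℝ}

theorem Jr.pm (h : x ∈ Jr v a) : PM (v x) a := interior_subset (s := {x | PM (v x) a}) h

theorem mem_Jr : x ∈ Jr v a ↔ ∀ᶠ y in 𝓝 x, PM (v y) a := mem_interior_iff_mem_nhds

theorem mem_Jv : x ∈ Jv v a b c ↔
    ∀ᶠ y in 𝓝 x, (y < c → PM (v y) a) ∧ (y = c → v y = 0) ∧ (c < y → PM (v y) b) :=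
  mem_interior_iff_mem_nhds

theorem Jr_congr {a' : Z2} (h : PM a a') : Jr v a = Jr v a' := by
  unfold Jr
  congr 1
  ext x
  exact ⟨fun e => PM.trans e h, fun e => PM.trans e h.symm⟩

theorem Jv.left (h : x ∈ Jv v a b c) (hx : x < c) : x ∈ Jr v a := by
  rw [mem_Jr]
  filter_upwards [mem_Jv.1 h, Iio_mem_nhds hx] with y h1 h2 using h1.1 h2

theorem Jv.right (h : x ∈ Jv v a b c) (hx : c < x) : x ∈ Jr v b := by
  rw [mem_Jr]
  filter_upwards [mem_Jv.1 h, Ioi_mem_nhds hx] with y h1 h2 using h1.2.2 h2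

theorem Jv.zero (h : c ∈ Jv v a b c) : v c = 0 := (mem_Jv.1 h).self_of_nhds.2.1 rfl

theorem Jv.of_left (h : x ∈ Jr v a) (hx : x < c) : x ∈ Jv v a b c := by
  rw [mem_Jv]
  filter_upwards [mem_Jr.1 h, Iio_mem_nhds hx] with y h1 h2
  exact ⟨fun _ => h1, fun e => absurd e (ne_of_lt h2), fun e => absurd e (not_lt.2 (le_of_lt h2))⟩

theorem Jv.of_right (h : x ∈ Jr v b) (hx : c < x) : x ∈ Jv v a b c := by
  rw [mem_Jv]
  filter_upwards [mem_Jr.1 h, Ioi_mem_nhds hx] with y h1 h2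
  exact ⟨fun e => absurd e (not_lt.2 (le_of_lt h2)), fun e => absurd e (ne_of_gt h2), fun _ => h1⟩

theorem Jv.pm {a' b' : Z2} (h : c ∈ Jv v a b c) (h' : c ∈ Jv v a' b' c) : PM a' a ∧ PM b' b := by
  have k := (mem_Jv.1 h).and (mem_Jv.1 h')
  obtain ⟨y, y1, y2⟩ := ((k.filter_mono nhdsWithin_le_nhds).and (self_mem_nhdsWithin (s := Iio c))).exists
  obtain ⟨w, w1, w2⟩ := ((k.filter_mono nhdsWithin_le_nhds).and (self_mem_nhdsWithin (s := Ioi c))).exists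
  exact ⟨(y1.2.1 y2).symm.trans (y1.1.1 y2), (w1.2.2.2 w2).symm.trans (w1.1.2.2 w2)⟩

theorem continuous_tm (c : ℝ) : Continuous (tm c) := by unfold tm; fun_prop

theorem isOpen_Ur : IsOpen (Ur v a) :=
  (isOpen_ne.preimage (continuous_snd.comp continuous_fst)).union
    (isOpen_interior.preimage continuous_snd)

theorem isOpen_Uv : IsOpen (Uv v a b c) :=
  ((isOpen_ne.preimage continuous_fst).inter (isOpen_ne.preimage continuous_snd)).union
    (isOpen_interior.preimage (continuous_tm c))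

theorem hR_ne {z : ℂ × ℂ} (h : z.1 ≠ 0) : (hR c z).1.2 = 0 ↔ z.2 = 0 := hyp_ne h
theorem hL_ne {z : ℂ × ℂ} (h : z.2 ≠ 0) : (hL c z).1.2 = 0 ↔ z.1 = 0 := hyp_ne (z := z.swap) h

theorem hR_mem {z : ℂ × ℂ} (hz : z ∈ Uv v a b c) (h : z.1 ≠ 0) : hR c z ∈ Ur v b := by
  by_cases h2 : z.2 = 0
  · refine Or.inr (Jv.right (hz.resolve_left fun e => e.2 h2) ?_)
    have := norm_pos_iff.2 h
    simp only [hR, tm, h2, norm_zero]
    nlinarith
  · exact Or.inl fun e => h2 ((hR_ne h).1 e)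

theorem hL_mem {z : ℂ × ℂ} (hz : z ∈ Uv v a b c) (h : z.2 ≠ 0) : hL c z ∈ Ur v a := by
  by_cases h2 : z.1 = 0
  · refine Or.inr (Jv.left (hz.resolve_left fun e => e.1 h2) ?_)
    have := norm_pos_iff.2 h
    simp only [hL, tm, h2, norm_zero]
    nlinarith
  · exact Or.inl fun e => h2 ((hL_ne h).1 e)

theorem ld_aff (c s : ℝ) (hs : s * s = 1) : IsLocalDiffeomorph 𝓘(ℝ, ℝ) 𝓘(ℝ, ℝ) ∞ (fun t : ℝ => c + s * t) :=
  (diffeoOf (fun t : ℝ => c + s * t) (fun t : ℝ => s * (t - c)) (ContDiff.contMDiff (by fun_prop)) (ContDiff.contMDiff (by fun_prop))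
    (fun t => by linear_combination t * hs) fun t => by linear_combination (t - c) * hs).isLocalDiffeomorph

theorem ld_hR {z : ℂ × ℂ} (h : z.1 ≠ 0) : IsLocalDiffeomorphAt IV IR ∞ (hR c) z := by
  refine ld_congr ((ld_hyp h).comp _ _ (ld_prodMap_at (ld_id _) (ld_aff c 1 (one_mul 1) _))) ?_
  exact Eventually.of_forall fun z => Prod.ext rfl (by simp [hR, tm, hyp])

theorem ld_hL {z : ℂ × ℂ} (h : z.2 ≠ 0) : IsLocalDiffeomorphAt IV IR ∞ (hL c) z := by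
  refine ld_congr ((ld_clm (ContinuousLinearEquiv.prodComm ℝ ℂ ℂ) z).comp _ _
    ((ld_hyp (z := z.swap) h).comp _ _ (ld_prodMap_at (ld_id _) (ld_aff c (-1) (by norm_num) _)))) ?_
  exact Eventually.of_forall fun z => Prod.ext rfl (by simp [hL, tm, hyp])

theorem hR_inj {z z' : ℂ × ℂ} (h : z.1 ≠ 0) (h' : z'.1 ≠ 0) (e : hR c z = hR c z') : z = z' := by
  rw [← hypI_hyp h, ← hypI_hyp h']
  congr 1
  exact Prod.ext (congrArg Prod.fst e :) (add_left_cancel (congrArg Prod.snd e :))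

theorem hL_inj {z z' : ℂ × ℂ} (h : z.2 ≠ 0) (h' : z'.2 ≠ 0) (e : hL c z = hL c z') : z = z' := by
  refine Prod.swap_injective (hR_inj (c := 0) h h' (Prod.ext (congrArg Prod.fst e :) ?_))
  have : tm c z = tm c z' := congrArg Prod.snd e
  simp only [hR, tm, Prod.fst_swap, Prod.snd_swap] at this ⊢
  linarith

theorem gl_hyp (a b : Z2) {z : ℂ × ℂ} (h1 : z.1 ≠ 0) : gl b a (hyp z).1 =
    (dir z.1 ^ a.1 * dir z.2 ^ b.1,
      ((2 * ‖z.1‖ * ‖z.2‖ : ℝ) : ℂ) * (dir z.1 ^ a.2 * dir z.2 ^ b.2 : Circle)) := by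
  have h3 : dir (hyp z).1.2 = dir z.2 := dir_pos_mul (by have := norm_pos_iff.2 h1; positivity) _
  rw [gl, norm_hyp, h3, mul_comm (dir z.2 ^ b.1), mul_comm (dir z.2 ^ b.2)]
  rfl

theorem gl_hyp_swap (a b : Z2) {z : ℂ × ℂ} (h1 : z.1 ≠ 0) (h2 : z.2 ≠ 0) :
    gl a b (hyp z.swap).1 = gl b a (hyp z).1 := by
  rw [gl_hyp b a (z := z.swap) h2, gl_hyp a b h1, mul_comm (dir z.1 ^ a.1), mul_comm (dir z.1 ^ a.2),
    mul_right_comm 2 ‖z.1‖]
  rfl

end Dom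

variable {EN HN : Type} [NormedAddCommGroup EN] [NormedSpace ℝ EN] [FiniteDimensional ℝ EN]
  [TopologicalSpace HN] {IN : ModelWithCorners ℝ EN HN} [IN.Boundaryless]
  {N : Type} [TopologicalSpace N] [ChartedSpace HN N] [IsManifold IN ∞ N] [T2Space N]

variable (IN N) in
/-- a smooth tube in a three-manifold -/
structure Tb where
  τ : Circle × ℂ → N
  ld : IsLocalDiffeomorph IT IN ∞ τ
  inj : Injective τ
  dim : Module.finrank ℝ EN = 3

namespace Tb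

variable (T : Tb IN N) (v : ℝ → Z2)

/-- the complement of the core -/
def Ex : Set N := {p | ∀ u, T.τ (u, 0) ≠ p}

theorem τ_mem {w : Circle × ℂ} : T.τ w ∈ T.Ex ↔ w.2 ≠ 0 :=
  ⟨fun h e => h w.1 (by rw [← e]), fun h _ e => h (congrArg Prod.snd (T.inj e)).symm⟩

theorem isOpen_Ex : IsOpen T.Ex := by
  have : T.Ex = (range fun u => T.τ (u, 0))ᶜ := by
    ext p
    simp [Ex]
  rw [this]
  exact (isCompact_range (T.ld.contMDiff.continuous.comp (by fun_prop))).isClosed.isOpen_compl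

/-- normal form in a rod chart -/
def Φr (a b : Z2) (w : (Circle × ℂ) × ℝ) : (N × ℝ) ⊕ (ℝ × Circle) :=
  if w.1.2 = 0 then .inr (w.2, w.1.1 ^ dt (v w.2) b) else .inl (T.τ (gl a b w.1), w.2)

/-- normal form in a vertex chart -/
def Φv (a b : Z2) (c : ℝ) (z : ℂ × ℂ) : (N × ℝ) ⊕ (ℝ × Circle) :=
  if z.1 = 0 then T.Φr v a b (hL c z) else T.Φr v b a (hR c z)

variable {v} {a b : Z2} {c : ℝ}

theorem Φr_ne {w : (Circle × ℂ) × ℝ} (h : w.1.2 ≠ 0) : T.Φr v a b w = .inl (T.τ (gl a b w.1), w.2) :=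
  if_neg h

theorem Φr_zero {w : (Circle × ℂ) × ℝ} (h : w.1.2 = 0) :
    T.Φr v a b w = .inr (w.2, w.1.1 ^ dt (v w.2) b) := if_pos h

theorem Φv_R {z : ℂ × ℂ} (h : z.1 ≠ 0) : T.Φv v a b c z = T.Φr v b a (hR c z) := if_neg h

theorem Φv_L {z : ℂ × ℂ} (h : z.2 ≠ 0) : T.Φv v a b c z = T.Φr v a b (hL c z) := by
  by_cases h1 : z.1 = 0
  · exact if_pos h1
  · rw [T.Φv_R h1, T.Φr_ne fun e => h ((hR_ne h1).1 e), T.Φr_ne fun e => h1 ((hL_ne h).1 e)]
    exact congrArg (fun t => Sum.inl (T.τ t, tm c z)) (gl_hyp_swap a b h1 h).symm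

theorem Φv_zero : T.Φv v a b c 0 = .inr (c, 1) := by
  rw [Φv, if_pos (show (0 : ℂ × ℂ).1 = 0 from rfl), T.Φr_zero (by simp [hL, hyp])]
  simp [hL, hyp, tm, dir_zero]

/-- the time of a normal form -/
def tS (s : (N × ℝ) ⊕ (ℝ × Circle)) : ℝ := Sum.elim Prod.snd Prod.fst s

theorem tS_Φr (w : (Circle × ℂ) × ℝ) : tS (T.Φr v a b w) = w.2 := by
  unfold Φr
  split_ifs <;> rfl

theorem tS_Φv (z : ℂ × ℂ) : tS (T.Φv v a b c z) = tm c z := by
  unfold Φv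
  split_ifs <;> exact T.tS_Φr _

theorem isRight_Φr (w : (Circle × ℂ) × ℝ) : (T.Φr v a b w).isRight ↔ w.1.2 = 0 := by
  unfold Φr
  split_ifs with h <;> simp [h]

theorem isRight_Φv (z : ℂ × ℂ) : (T.Φv v a b c z).isRight ↔ z.1 = 0 ∨ z.2 = 0 := by
  by_cases h : z.1 = 0
  · rw [Φv, if_pos h, isRight_Φr]
    simp [hL, hyp, h]
  · rw [T.Φv_R h, isRight_Φr, hR_ne h]
    simp [h]

theorem Φr_inj (hu : Uni a b) : InjOn (T.Φr v a b) (Ur v a) := by
  intro w hw w' hw' e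
  have e2 : w.2 = w'.2 := by rw [← T.tS_Φr (v := v) (a := a) (b := b) w, e, T.tS_Φr]
  have e3 : w.1.2 = 0 ↔ w'.1.2 = 0 := by rw [← T.isRight_Φr (v := v) (a := a) (b := b) w, e, T.isRight_Φr]
  refine Prod.ext ?_ e2
  by_cases h : w.1.2 = 0
  · rw [T.Φr_zero h, T.Φr_zero (e3.1 h), ← e2] at e
    exact Prod.ext (zpow_uni_injective ((Jr.pm (hw.resolve_left fun k => k h)).uni hu)
      (congrArg Prod.snd (Sum.inr_injective e))) (h.trans (e3.1 h).symm)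
  · rw [T.Φr_ne h, T.Φr_ne (mt e3.2 h)] at e
    exact gl_inj hu h (mt e3.2 h) (T.inj (congrArg Prod.fst (Sum.inl_injective e)))

theorem Φv_inj (hu : Uni a b) : InjOn (T.Φv v a b c) (Uv v a b c) := by
  have key : ∀ z z' : ℂ × ℂ, T.Φv v a b c z = T.Φv v a b c z' →
      (z.1 = 0 → z'.1 = 0) ∧ (z.2 = 0 → z'.2 = 0) := by
    intro z z' e
    have e2 : tm c z = tm c z' := by rw [← T.tS_Φv (v := v) (a := a) (b := b) z, e, T.tS_Φv]
    have e3 : z.1 = 0 ∨ z.2 = 0 → z'.1 = 0 ∨ z'.2 = 0 := by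
      rw [← T.isRight_Φv (v := v) (a := a) (b := b) (c := c) z, e, T.isRight_Φv]
      exact id
    unfold tm at e2
    constructor
    · intro h
      refine (e3 (Or.inl h)).elim id fun k => norm_eq_zero.1 ?_
      rw [h, k, norm_zero] at e2
      nlinarith [sq_nonneg ‖z.2‖, sq_nonneg ‖z'.1‖]
    · intro h
      refine (e3 (Or.inr h)).elim (fun k => norm_eq_zero.1 ?_) id
      rw [h, k, norm_zero] at e2
      nlinarith [sq_nonneg ‖z.1‖, sq_nonneg ‖z'.2‖]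
  intro z hz z' hz' e
  by_cases h1 : z.1 = 0
  · by_cases h2 : z.2 = 0
    · exact Prod.ext (h1.trans ((key _ _ e).1 h1).symm) (h2.trans ((key _ _ e).2 h2).symm)
    · have h2' : z'.2 ≠ 0 := mt (key _ _ e.symm).2 h2
      rw [T.Φv_L h2, T.Φv_L h2'] at e
      exact hL_inj h2 h2' (T.Φr_inj hu (hL_mem hz h2) (hL_mem hz' h2') e)
  · have h1' : z'.1 ≠ 0 := mt (key _ _ e.symm).1 h1
    rw [T.Φv_R h1, T.Φv_R h1'] at e
    exact hR_inj h1 h1' (T.Φr_inj hu.symm (hR_mem hz h1) (hR_mem hz' h1') e)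

theorem Φr_cj (w : (Circle × ℂ) × ℝ) : T.Φr v (-a) b w = T.Φr v a b (cj w.1, w.2) := by
  by_cases h : w.1.2 = 0
  · rw [T.Φr_zero h, T.Φr_zero (w := (cj w.1, w.2)) (cj_ne.2 h)]
    rfl
  · rw [T.Φr_ne h, T.Φr_ne (w := (cj w.1, w.2)) (mt cj_ne.1 h), gl_cj]

theorem Φr_iv (w : (Circle × ℂ) × ℝ) : T.Φr v a (-b) w = T.Φr v a b (iv w.1, w.2) := by
  by_cases h : w.1.2 = 0
  · rw [T.Φr_zero h, T.Φr_zero (w := (iv w.1, w.2)) h, dt_neg_right]
    simp [iv]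
  · rw [T.Φr_ne h, T.Φr_ne (w := (iv w.1, w.2)) h, gl_iv]

theorem Φr_tw (m : ℤ) {w : (Circle × ℂ) × ℝ} (hw : w ∈ Ur v a) :
    T.Φr v a (b + m • a) w = T.Φr v a b (tw m w.1, w.2) := by
  by_cases h : w.1.2 = 0
  · rw [T.Φr_zero h, T.Φr_zero (w := (tw m w.1, w.2)) (tw_ne.2 h), dt_add_smul,
      (Jr.pm (hw.resolve_left fun k => k h)).dt_eq, mul_zero, add_zero]
    rfl
  · rw [T.Φr_ne h, T.Φr_ne (w := (tw m w.1, w.2)) (mt tw_ne.1 h), gl_tw _ _ _ h]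

/-- two rod charts of the same slope differ by a diffeomorphism of the solid torus -/
theorem Φr_change {a' b' : Z2} (hu : Uni a b) (hu' : Uni a' b') (h : PM a' a) :
    ∃ k : Circle × ℂ → Circle × ℂ, IsLocalDiffeomorph IT IT ∞ k ∧ (∀ w, (k w).2 = 0 ↔ w.2 = 0) ∧
      ∀ w ∈ Ur v a, T.Φr v a' b' w = T.Φr v a b (k w.1, w.2) := by
  obtain ⟨m, hm⟩ := hu.compl (h.symm.uni hu')
  have h1 : ∃ k : Circle × ℂ → Circle × ℂ, IsLocalDiffeomorph IT IT ∞ k ∧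
      (∀ w, (k w).2 = 0 ↔ w.2 = 0) ∧ ∀ w ∈ Ur v a, T.Φr v a b' w = T.Φr v a b (k w.1, w.2) := by
    rcases hm with rfl | rfl
    · exact ⟨tw m, ld_tw m, fun _ => tw_ne, fun w hw => T.Φr_tw m hw⟩
    · exact ⟨tw m ∘ iv, ld_comp (ld_tw m) ld_iv, fun _ => tw_ne, fun w hw =>
        (T.Φr_iv w).trans (T.Φr_tw m (w := (iv w.1, w.2)) hw)⟩
  obtain ⟨k, k1, k2, k3⟩ := h1
  rcases h with rfl | rfl
  · exact ⟨k, k1, k2, k3⟩
  · exact ⟨k ∘ cj, ld_comp k1 ld_cj, fun _ => (k2 _).trans cj_ne, fun w hw =>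
      (T.Φr_cj w).trans (k3 (cj w.1, w.2) (hw.imp_left (mt cj_ne.1)))⟩

theorem Φv_cj1 (z : ℂ × ℂ) : T.Φv v (-a) b c z = T.Φv v a b c (conj z.1, z.2) := by
  by_cases h : z.1 = 0
  · rw [Φv, Φv, if_pos h, if_pos (by simpa using h), Φr_cj]
    congr 1
    simp [hL, hyp, tm, cj, map_ofNat]
  · rw [T.Φv_R h, T.Φv_R (by simpa using h), Φr_iv]
    congr 1
    simp [hR, hyp, tm, iv, dir_conj]

theorem Φv_cj2 (z : ℂ × ℂ) : T.Φv v a (-b) c z = T.Φv v a b c (z.1, conj z.2) := by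
  by_cases h : z.1 = 0
  · rw [Φv, Φv, if_pos h, if_pos h, Φr_iv]
    congr 1
    simp [hL, hyp, tm, iv, dir_conj]
  · rw [T.Φv_R h, T.Φv_R (z := (z.1, conj z.2)) h, Φr_cj]
    congr 1
    simp [hR, hyp, tm, cj, map_ofNat]

theorem rl_rod_ext (hu : Uni a b) {w : (Circle × ℂ) × ℝ} (h : w.1.2 ≠ 0) :
    Rl IR (IN.prod 𝓘(ℝ, ℝ)) (T.Φr v a b) Sum.inl w (T.τ (gl a b w.1), w.2) := by
  refine ⟨Prod.map (T.τ ∘ gl a b) id, ld_prodMap_at ((ld_gl hu h).comp _ _ (T.ld _)) (ld_id _), rfl, ?_⟩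
  filter_upwards [(isOpen_ne.preimage (continuous_snd.comp continuous_fst)).mem_nhds h] with y hy
  exact (T.Φr_ne hy).symm

theorem rl_R {z : ℂ × ℂ} (h : z.1 ≠ 0) : Rl IV IR (T.Φv v a b c) (T.Φr v b a) z (hR c z) := by
  refine ⟨hR c, ld_hR h, rfl, ?_⟩
  filter_upwards [(isOpen_ne.preimage continuous_fst).mem_nhds h] with y hy using (T.Φv_R hy).symm

theorem rl_L {z : ℂ × ℂ} (h : z.2 ≠ 0) : Rl IV IR (T.Φv v a b c) (T.Φr v a b) z (hL c z) := by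
  refine ⟨hL c, ld_hL h, rfl, ?_⟩
  filter_upwards [(isOpen_ne.preimage continuous_snd).mem_nhds h] with y hy using (T.Φv_L hy).symm

theorem rl_rod_rod {a' b' : Z2} (hu : Uni a b) (hu' : Uni a' b') (h : PM a' a)
    {w w' : (Circle × ℂ) × ℝ} (hw : w ∈ Ur v a) (hw' : w' ∈ Ur v a)
    (e : T.Φr v a' b' w' = T.Φr v a b w) : Rl IR IR (T.Φr v a' b') (T.Φr v a b) w' w := by
  obtain ⟨k, k1, k2, k3⟩ := T.Φr_change (v := v) hu hu' h
  refine ⟨Prod.map k id, ld_prodMap_at (k1 _) (ld_id _),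
    T.Φr_inj hu (x₁ := (k w'.1, w'.2)) (hw'.imp_left (mt (k2 _).1)) hw ((k3 _ hw').symm.trans e), ?_⟩
  filter_upwards [isOpen_Ur.mem_nhds hw'] with y hy using (k3 y hy).symm

theorem rl_vtx_vtx {a' b' : Z2} (h : PM a' a) (h' : PM b' b) :
    Rl IV IV (T.Φv v a' b' c) (T.Φv v a b c) 0 0 := by
  have h1 : Rl IV IV (T.Φv v a b' c) (T.Φv v a b c) 0 0 := by
    rcases h' with rfl | rfl
    · exact Rl.refl _ _
    · exact ⟨_, ld_clm ((ContinuousLinearEquiv.refl ℝ ℂ).prodCongr Complex.conjCLE) 0, map_zero _,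
        Eventually.of_forall fun z => (T.Φv_cj2 z).symm⟩
  rcases h with rfl | rfl
  · exact h1
  · exact Rl.trans (g := T.Φv v a b' c) ⟨_, ld_clm (Complex.conjCLE.prodCongr (ContinuousLinearEquiv.refl ℝ ℂ)) 0,
      map_zero _, Eventually.of_forall fun z => (T.Φv_cj1 z).symm⟩ h1

/-- a germ is related to one of the three standard germs -/
def Good {E H M : Type} [NormedAddCommGroup E] [NormedSpace ℝ E] [TopologicalSpace H]
    (I : ModelWithCorners ℝ E H) [TopologicalSpace M] [ChartedSpace H M] (v : ℝ → Z2)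
    (f : M → (N × ℝ) ⊕ (ℝ × Circle)) (p : M) : Prop :=
  (∃ s, Rl I (IN.prod 𝓘(ℝ, ℝ)) f Sum.inl p s) ∨
  (∃ a b w, Uni a b ∧ w.1.2 = 0 ∧ w.2 ∈ Jr v a ∧ Rl I IR f (T.Φr v a b) p w) ∨
  ∃ a b c, c ∈ Jv v a b c ∧ Rl I IV f (T.Φv v a b c) p 0

theorem good_rod (hu : Uni a b) {w : (Circle × ℂ) × ℝ} (hw : w ∈ Ur v a) :
    T.Good IR v (T.Φr v a b) w := by
  by_cases h : w.1.2 = 0
  · exact Or.inr (Or.inl ⟨a, b, w, hu, h, hw.resolve_left fun k => k h, Rl.refl _ _⟩)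
  · exact Or.inl ⟨_, T.rl_rod_ext hu h⟩

section

variable {E H M : Type} [NormedAddCommGroup E] [NormedSpace ℝ E] [TopologicalSpace H]
  {I : ModelWithCorners ℝ E H} [TopologicalSpace M] [ChartedSpace H M]
  {E' H' M' : Type} [NormedAddCommGroup E'] [NormedSpace ℝ E'] [TopologicalSpace H']
  {I' : ModelWithCorners ℝ E' H'} [TopologicalSpace M'] [ChartedSpace H' M']
  {f : M → (N × ℝ) ⊕ (ℝ × Circle)} {g : M' → (N × ℝ) ⊕ (ℝ × Circle)} {p : M} {q : M'}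

theorem Good.of_rl {T : Tb IN N} (h : Rl I I' f g p q) (k : T.Good I' v g q) : T.Good I v f p := by
  rcases k with ⟨s, k⟩ | ⟨a, b, w, k1, k2, k3, k⟩ | ⟨a, b, c, k1, k⟩
  · exact Or.inl ⟨s, h.trans k⟩
  · exact Or.inr (Or.inl ⟨a, b, w, k1, k2, k3, h.trans k⟩)
  · exact Or.inr (Or.inr ⟨a, b, c, k1, h.trans k⟩)

theorem Good.rl {T : Tb IN N} (h : T.Good I v f p) (k : T.Good I' v g q) (e : f p = g q) :
    Rl I I' f g p q := by
  rcases h with ⟨s, h⟩ | ⟨a, b, w, h1, h2, h3, h⟩ | ⟨a, b, c, h1, h⟩ <;>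
    rcases k with ⟨s', k⟩ | ⟨a', b', w', k1, k2, k3, k⟩ | ⟨a', b', c', k1, k⟩ <;>
    have e' := h.eq.symm.trans (e.trans k.eq)
  · rw [Sum.inl_injective e'] at h
    exact h.trans k.symm
  · rw [T.Φr_zero k2] at e'
    cases e'
  · rw [T.Φv_zero] at e'
    cases e'
  · rw [T.Φr_zero h2] at e'
    cases e'
  · have e2 : w.2 = w'.2 := by rw [← T.tS_Φr (v := v) (a := a) (b := b) w, e', T.tS_Φr]
    have pm : PM a a' := (Jr.pm h3).symm.trans (e2 ▸ Jr.pm k3)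
    exact (h.trans (T.rl_rod_rod k1 h1 pm (Or.inr k3) (Or.inr (e2 ▸ k3)) e')).trans k.symm
  · rw [T.Φr_zero h2, T.Φv_zero] at e'
    have e2 : w.2 = c' := congrArg Prod.fst (Sum.inr_injective e')
    exact absurd (e2 ▸ Jv.zero k1) ((Jr.pm h3).ne_zero h1)
  · rw [T.Φv_zero] at e'
    cases e'
  · rw [T.Φr_zero k2, T.Φv_zero] at e'
    have e2 : c = w'.2 := congrArg Prod.fst (Sum.inr_injective e')
    exact absurd (e2 ▸ Jv.zero h1) ((Jr.pm k3).ne_zero k1)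
  · rw [T.Φv_zero, T.Φv_zero] at e'
    obtain rfl : c = c' := congrArg Prod.fst (Sum.inr_injective e')
    exact (h.trans (T.rl_vtx_vtx (Jv.pm k1 h1).1 (Jv.pm k1 h1).2)).trans k.symm

end

theorem good_vtx (hu : Uni a b) {z : ℂ × ℂ} (hz : z ∈ Uv v a b c) : T.Good IV v (T.Φv v a b c) z := by
  by_cases h1 : z.1 = 0
  · by_cases h2 : z.2 = 0
    · obtain rfl : z = 0 := Prod.ext h1 h2
      refine Or.inr (Or.inr ⟨a, b, c, ?_, Rl.refl _ _⟩)
      simpa [tm] using hz.resolve_left fun k => k.1 rfl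
    · exact Good.of_rl (T.rl_L h2) (T.good_rod hu (hL_mem hz h2))
  · exact Good.of_rl (T.rl_R h1) (T.good_rod hu.symm (hR_mem hz h1))

end Tb

/-- the index set of the charts -/
inductive Ix : Type
  | ext : Ix
  | rod (a b : Z2) (hu : Uni a b) : Ix
  | vtx (a b : Z2) (hu : Uni a b) (c : ℝ) : Ix

namespace Tb

variable (T : Tb IN N) (v : ℝ → Z2)

/-- the ambient pieces -/
def pc : Ix → Pc E4
  | .ext => Pc.of (IN.prod 𝓘(ℝ, ℝ)) (N × ℝ) (linE 4 _ (by simp [T.dim]))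
  | .rod _ _ _ => Pc.of IR ((Circle × ℂ) × ℝ) (linE 4 _ (by simp))
  | .vtx _ _ _ _ => Pc.of IV (ℂ × ℂ) (linE 4 _ (by simp))

/-- the domains -/
def dom : ∀ i, Set (T.pc i).M
  | .ext => T.Ex ×ˢ (univ : Set ℝ)
  | .rod a _ _ => Ur v a
  | .vtx a b _ c => Uv v a b c

/-- the normal forms -/
def Φ : ∀ i, (T.pc i).M → (N × ℝ) ⊕ (ℝ × Circle)
  | .ext => Sum.inl
  | .rod a b _ => T.Φr v a b
  | .vtx a b _ c => T.Φv v a b c

theorem good : ∀ i, ∀ p ∈ T.dom v i, T.Good (T.pc i).I v (T.Φ v i) p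
  | .ext, p, _ => Or.inl ⟨p, Rl.refl _ _⟩
  | .rod _ _ hu, _, hp => T.good_rod hu hp
  | .vtx _ _ hu _, _, hp => T.good_vtx hu hp

/-- the gluing data of the rod manifold -/
def go : GO E4 Ix ((N × ℝ) ⊕ (ℝ × Circle)) where
  P := T.pc
  U := T.dom v
  op
    | .ext => T.isOpen_Ex.prod isOpen_univ
    | .rod _ _ _ => isOpen_Ur
    | .vtx _ _ _ _ => isOpen_Uv
  ne
    | .ext => ⟨(T.τ (1, 1), 0), T.τ_mem.2 one_ne_zero, mem_univ _⟩
    | .rod _ _ _ => ⟨((1, 1), 0), Or.inl one_ne_zero⟩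
    | .vtx _ _ _ _ => ⟨(1, 1), Or.inl ⟨one_ne_zero, one_ne_zero⟩⟩
  Φ := T.Φ v
  inj
    | .ext => Sum.inl_injective.injOn
    | .rod _ _ hu => T.Φr_inj hu
    | .vtx _ _ hu _ => T.Φv_inj hu
  et i j p hp q hq e := (T.good v i p hp).rl (T.good v j q hq) e

end Tb

/-- THE ROD MANIFOLD of the tube `T` and the rod structure `v` -/
def X (T : Tb IN N) (v : ℝ → Z2) : Type := (T.go v).M

instance (T : Tb IN N) (v : ℝ → Z2) : TopologicalSpace (X T v) :=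
  inferInstanceAs (TopologicalSpace (T.go v).M)
instance (T : Tb IN N) (v : ℝ → Z2) : ChartedSpace E4 (X T v) :=
  inferInstanceAs (ChartedSpace E4 (T.go v).M)
instance (T : Tb IN N) (v : ℝ → Z2) : IsManifold (𝓡 4) ∞ (X T v) :=
  inferInstanceAs (IsManifold 𝓘(ℝ, E4) ∞ (T.go v).M)

end Crest.Agent.X212.Rod53
end
end

-- ▼ part X212/Rod53/Api
section

/-!
# X212 / Rod53, part Api (helper53): charts, time, height, Hausdorff property, properness

* `T.ext v`, `T.rod v hu`, `T.vtx v hu c` : the charts as partial diffeomorphisms into `X T v`;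
* `T.nf v` (injective normal form), `T.time v` (smooth), `T.yy v` (height), `T.eta v = (1 + y)⁻¹` (continuous,
  `0` off the toric part), ranges of the charts, `T.ind`, tests for smoothness;
* `T2Space (X T v)`; `Loc v`, `isCompact_time`, `isCompact_tor`, second countability.
-/

set_option autoImplicit false
set_option linter.unusedSectionVars false

open Set Filter Topology Function Metric
open scoped ContDiff Manifold ComplexConjugate

noncomputable section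

namespace Crest.Agent.X212.Rod53

open Crest.Agent.X212.Glue52

variable {EN HN : Type} [NormedAddCommGroup EN] [NormedSpace ℝ EN] [FiniteDimensional ℝ EN]
  [TopologicalSpace HN] {IN : ModelWithCorners ℝ EN HN} [IN.Boundaryless]
  {N : Type} [TopologicalSpace N] [ChartedSpace HN N] [IsManifold IN ∞ N] [T2Space N]

/-- every point of the axis is a rod point or a vertex -/
def Loc (v : ℝ → Z2) : Prop := ∀ x, ∃ a b c, Uni a b ∧ x ∈ Jv v a b c

namespace Tb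

variable (T : Tb IN N) (v : ℝ → Z2) {a b : Z2}

/-- the exterior chart -/
def ext : PartialDiffeomorph (IN.prod 𝓘(ℝ, ℝ)) (𝓡 4) (N × ℝ) (X T v) ∞ := (T.go v).ch .ext

/-- the rod chart -/
def rod (hu : Uni a b) : PartialDiffeomorph IR (𝓡 4) ((Circle × ℂ) × ℝ) (X T v) ∞ :=
  (T.go v).ch (.rod a b hu)

/-- the vertex chart -/
def vtx (hu : Uni a b) (c : ℝ) : PartialDiffeomorph IV (𝓡 4) (ℂ × ℂ) (X T v) ∞ :=
  (T.go v).ch (.vtx a b hu c)

@[simp] theorem ext_source : (T.ext v).source = T.Ex ×ˢ univ := rfl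
@[simp] theorem rod_source (hu : Uni a b) : (T.rod v hu).source = Ur v a := rfl
@[simp] theorem vtx_source (hu : Uni a b) (c : ℝ) : (T.vtx v hu c).source = Uv v a b c := rfl

/-- the normal form -/
def nf : X T v → (N × ℝ) ⊕ (ℝ × Circle) := (T.go v).nf

theorem nf_injective : Injective (T.nf v) := (T.go v).nf_injective

variable {v} {c : ℝ}

theorem nf_ext {p : N × ℝ} (h : p.1 ∈ T.Ex) : T.nf v (T.ext v p) = .inl p :=
  (T.go v).nf_pm (i := .ext) ⟨h, mem_univ _⟩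

theorem nf_rod (hu : Uni a b) {w : (Circle × ℂ) × ℝ} (h : w ∈ Ur v a) :
    T.nf v (T.rod v hu w) = T.Φr v a b w := (T.go v).nf_pm (i := .rod a b hu) h

theorem nf_vtx (hu : Uni a b) {z : ℂ × ℂ} (h : z ∈ Uv v a b c) :
    T.nf v (T.vtx v hu c z) = T.Φv v a b c z := (T.go v).nf_pm (i := .vtx a b hu c) h

theorem rod_eq_ext (hu : Uni a b) {w : (Circle × ℂ) × ℝ} (h : w.1.2 ≠ 0) :
    T.rod v hu w = T.ext v (T.τ (gl a b w.1), w.2) := T.nf_injective v <| by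
  rw [T.nf_rod hu (Or.inl h), T.nf_ext (T.τ_mem.2 (gl_ne.2 h)), T.Φr_ne h]

theorem vtx_eq_R (hu : Uni a b) {z : ℂ × ℂ} (hz : z ∈ Uv v a b c) (h : z.1 ≠ 0) :
    T.vtx v hu c z = T.rod v hu.symm (hR c z) := T.nf_injective v <| by
  rw [T.nf_vtx hu hz, T.nf_rod _ (hR_mem hz h), T.Φv_R h]

theorem vtx_eq_L (hu : Uni a b) {z : ℂ × ℂ} (hz : z ∈ Uv v a b c) (h : z.2 ≠ 0) :
    T.vtx v hu c z = T.rod v hu (hL c z) := T.nf_injective v <| by
  rw [T.nf_vtx hu hz, T.nf_rod _ (hL_mem hz h), T.Φv_L h]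

theorem vtx_eq_ext (hu : Uni a b) {z : ℂ × ℂ} (h1 : z.1 ≠ 0) (h2 : z.2 ≠ 0) :
    T.vtx v hu c z = T.ext v (T.τ (dir z.1 ^ a.1 * dir z.2 ^ b.1,
      ((2 * ‖z.1‖ * ‖z.2‖ : ℝ) : ℂ) * (dir z.1 ^ a.2 * dir z.2 ^ b.2 : Circle)), tm c z) := by
  rw [T.vtx_eq_R hu (Or.inl ⟨h1, h2⟩) h1, T.rod_eq_ext _ (mt (hR_ne h1).1 h2), ← gl_hyp a b h1]
  rfl

/-- the charts cover -/
theorem cover (p : X T v) : (∃ q : N × ℝ, q.1 ∈ T.Ex ∧ T.ext v q = p) ∨
    (∃ a b, ∃ hu : Uni a b, ∃ w ∈ Ur v a, T.rod v hu w = p) ∨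
    ∃ a b, ∃ hu : Uni a b, ∃ c, ∃ z ∈ Uv v a b c, T.vtx v hu c z = p := by
  obtain ⟨i, q, hq, e⟩ := (T.go v).surj p
  cases i with
  | ext => exact Or.inl ⟨q, hq.1, e⟩
  | rod a b hu => exact Or.inr (Or.inl ⟨a, b, hu, q, hq, e⟩)
  | vtx a b hu c => exact Or.inr (Or.inr ⟨a, b, hu, c, q, hq, e⟩)

/-- every point is an exterior point, a rod point or a vertex -/
@[elab_as_elim]
theorem ind {P : X T v → Prop} (h1 : ∀ q x, q ∈ T.Ex → P (T.ext v (q, x)))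
    (h2 : ∀ a b (hu : Uni a b) u x, x ∈ Jr v a → P (T.rod v hu ((u, 0), x)))
    (h3 : ∀ a b (hu : Uni a b) c, c ∈ Jv v a b c → P (T.vtx v hu c 0)) (p : X T v) : P p := by
  have k : ∀ a b (hu : Uni a b), ∀ w ∈ Ur v a, P (T.rod v hu w) := by
    rintro a b hu ⟨⟨u, ζ⟩, x⟩ hw
    by_cases h : ζ = 0
    · subst h
      exact h2 a b hu u x (hw.resolve_left fun k => k rfl)
    · rw [T.rod_eq_ext hu h]
      exact h1 _ _ (T.τ_mem.2 (gl_ne.2 h))
  rcases T.cover p with ⟨q, hq, rfl⟩ | ⟨a, b, hu, w, hw, rfl⟩ | ⟨a, b, hu, c, z, hz, rfl⟩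
  · exact h1 _ _ hq
  · exact k a b hu w hw
  · by_cases e1 : z.1 = 0
    · by_cases e2 : z.2 = 0
      · obtain rfl : z = 0 := Prod.ext e1 e2
        exact h3 a b hu c (by simpa [tm] using hz.resolve_left fun k => k.1 rfl)
      · rw [T.vtx_eq_L hu hz e2]
        exact k _ _ _ _ (hL_mem hz e2)
    · rw [T.vtx_eq_R hu hz e1]
      exact k _ _ _ _ (hR_mem hz e1)

section Test

variable {E' : Type*} [NormedAddCommGroup E'] [NormedSpace ℝ E'] {H' : Type*} [TopologicalSpace H']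
  {J : ModelWithCorners ℝ E' H'} {M : Type*} [TopologicalSpace M] [ChartedSpace H' M]

theorem zero_mem_Uv (h : c ∈ Jv v a b c) : (0 : ℂ × ℂ) ∈ Uv v a b c := Or.inr (by simpa [tm] using h)

/-- smoothness is tested in the exterior chart, along the rods and at the vertices -/
theorem contMDiff_of {g : X T v → M}
    (h1 : ∀ q x, q ∈ T.Ex → ContMDiffAt (IN.prod 𝓘(ℝ, ℝ)) J ∞ (g ∘ T.ext v) (q, x))
    (h2 : ∀ a b (hu : Uni a b) u x, x ∈ Jr v a → ContMDiffAt IR J ∞ (g ∘ T.rod v hu) ((u, 0), x))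
    (h3 : ∀ a b (hu : Uni a b) c, c ∈ Jv v a b c → ContMDiffAt IV J ∞ (g ∘ T.vtx v hu c) 0) :
    ContMDiff (𝓡 4) J ∞ g :=
  T.ind (fun q x h => contMDiffAt_of_comp (ld_pd (T.ext v) (mk_mem_prod h (mem_univ x))) (h1 q x h))
    (fun a b hu u x h => contMDiffAt_of_comp (ld_pd _ (Or.inr h)) (h2 a b hu u x h))
    fun a b hu c h => contMDiffAt_of_comp (ld_pd _ (zero_mem_Uv h)) (h3 a b hu c h)

end Test

theorem continuous_of {Z : Type*} [TopologicalSpace Z] {g : X T v → Z}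
    (h1 : ContinuousOn (g ∘ T.ext v) (T.Ex ×ˢ univ))
    (h2 : ∀ a b (hu : Uni a b), ContinuousOn (g ∘ T.rod v hu) (Ur v a))
    (h3 : ∀ a b (hu : Uni a b) c, ContinuousOn (g ∘ T.vtx v hu c) (Uv v a b c)) : Continuous g :=
  (T.go v).continuous_of fun i => match i with
    | .ext => h1
    | .rod a b hu => h2 a b hu
    | .vtx a b hu c => h3 a b hu c

variable (v) in
/-- the time function -/
def time (p : X T v) : ℝ := tS (T.nf v p)

theorem time_ext {p : N × ℝ} (h : p.1 ∈ T.Ex) : T.time v (T.ext v p) = p.2 := by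
  rw [time, T.nf_ext h]
  rfl

theorem time_rod (hu : Uni a b) {w : (Circle × ℂ) × ℝ} (h : w ∈ Ur v a) :
    T.time v (T.rod v hu w) = w.2 := by rw [time, T.nf_rod hu h, T.tS_Φr]

theorem time_vtx (hu : Uni a b) {z : ℂ × ℂ} (h : z ∈ Uv v a b c) :
    T.time v (T.vtx v hu c z) = tm c z := by rw [time, T.nf_vtx hu h, T.tS_Φv]

theorem contDiff_tm (c : ℝ) : ContDiff ℝ ∞ (tm c) :=
  contDiff_const.add (((contDiff_norm_sq ℝ).comp contDiff_fst).sub ((contDiff_norm_sq ℝ).comp contDiff_snd))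

theorem contMDiff_time : ContMDiff (𝓡 4) 𝓘(ℝ, ℝ) ∞ (T.time v) := by
  refine T.contMDiff_of (fun q x h => contMDiffAt_snd.congr_of_eventuallyEq ?_)
    (fun a b hu u x h => contMDiffAt_snd.congr_of_eventuallyEq ?_)
    fun a b hu c h => (contDiff_tm c).contMDiff.contMDiffAt.congr_of_eventuallyEq ?_
  · filter_upwards [(T.isOpen_Ex.preimage continuous_fst).mem_nhds h] with z hz using T.time_ext hz
  · filter_upwards [isOpen_Ur.mem_nhds (Or.inr h)] with z hz using T.time_rod hu hz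
  · filter_upwards [isOpen_Uv.mem_nhds (zero_mem_Uv h)] with z hz using T.time_vtx hu hz

theorem continuous_time : Continuous (T.time v) := T.contMDiff_time.continuous

/-- a function of the tube radius, with the value `d` off the tube -/
def rf {Z : Type} (g : ℝ → Z) (d : Z) : N → Z := extend T.τ (fun w => g ‖w.2‖) fun _ => d

theorem rf_τ {Z : Type} (g : ℝ → Z) (d : Z) (w : Circle × ℂ) : T.rf g d (T.τ w) = g ‖w.2‖ :=
  T.inj.extend_apply _ _ _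

theorem rf_not {Z : Type} (g : ℝ → Z) (d : Z) {p : N} (h : p ∉ range T.τ) : T.rf g d p = d :=
  extend_apply' _ _ _ h

variable (v) in
/-- a function of the height, with the value `d` off the toric part -/
def hf {Z : Type} (g : ℝ → Z) (d : Z) (p : X T v) : Z :=
  Sum.elim (fun q => T.rf g d q.1) (fun _ => g 0) (T.nf v p)

theorem hf_ext {Z : Type} (g : ℝ → Z) (d : Z) {p : N × ℝ} (h : p.1 ∈ T.Ex) :
    T.hf v g d (T.ext v p) = T.rf g d p.1 := by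
  rw [hf, T.nf_ext h]
  rfl

theorem hf_rod {Z : Type} (g : ℝ → Z) (d : Z) (hu : Uni a b) {w : (Circle × ℂ) × ℝ} (h : w ∈ Ur v a) :
    T.hf v g d (T.rod v hu w) = g ‖w.1.2‖ := by
  by_cases e : w.1.2 = 0
  · rw [hf, T.nf_rod hu h, T.Φr_zero e, e, norm_zero]
    rfl
  · rw [T.rod_eq_ext hu e, T.hf_ext _ _ (T.τ_mem.2 (gl_ne.2 e)), T.rf_τ, norm_gl]

theorem hf_vtx {Z : Type} (g : ℝ → Z) (d : Z) (hu : Uni a b) {z : ℂ × ℂ} (h : z ∈ Uv v a b c) :
    T.hf v g d (T.vtx v hu c z) = g (2 * ‖z.1‖ * ‖z.2‖) := by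
  by_cases e : z.1 = 0
  · have := (T.isRight_Φv (v := v) (a := a) (b := b) (c := c) z).2 (Or.inl e)
    obtain ⟨s, hs⟩ := Sum.isRight_iff.1 this
    rw [hf, T.nf_vtx hu h, hs, e]
    simp
  · rw [T.vtx_eq_R hu h e, T.hf_rod _ _ _ (hR_mem h e), ← norm_hyp]
    rfl

variable (v) in
/-- the height (junk value `0` off the toric part) -/
def yy : X T v → ℝ := T.hf v id 0

variable (v) in
/-- `(1 + y)⁻¹` on the toric part, `0` off it -/
def eta : X T v → ℝ := T.hf v (fun r => (1 + r)⁻¹) 0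

variable (v) in
/-- the toric part -/
def tor : Set (X T v) := {p | T.hf v (fun _ => True) False p}

theorem yy_rod (hu : Uni a b) {w : (Circle × ℂ) × ℝ} (h : w ∈ Ur v a) :
    T.yy v (T.rod v hu w) = ‖w.1.2‖ := T.hf_rod _ _ hu h

theorem yy_vtx (hu : Uni a b) {z : ℂ × ℂ} (h : z ∈ Uv v a b c) :
    T.yy v (T.vtx v hu c z) = 2 * ‖z.1‖ * ‖z.2‖ := T.hf_vtx _ _ hu h

theorem yy_ext {w : Circle × ℂ} (h : w.2 ≠ 0) (x : ℝ) : T.yy v (T.ext v (T.τ w, x)) = ‖w.2‖ :=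
  (T.hf_ext _ _ (T.τ_mem.2 h)).trans (T.rf_τ _ _ _)

theorem rod_mem_tor (hu : Uni a b) {w : (Circle × ℂ) × ℝ} (h : w ∈ Ur v a) : T.rod v hu w ∈ T.tor v :=
  (T.hf_rod _ _ hu h).mpr trivial

theorem vtx_mem_tor (hu : Uni a b) {z : ℂ × ℂ} (h : z ∈ Uv v a b c) : T.vtx v hu c z ∈ T.tor v :=
  (T.hf_vtx _ _ hu h).mpr trivial

theorem ext_mem_tor {p : N × ℝ} (h : p.1 ∈ T.Ex) : T.ext v p ∈ T.tor v ↔ p.1 ∈ range T.τ := by
  rw [tor, mem_ofPred_eq, T.hf_ext _ _ h]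
  refine ⟨fun e => by_contra fun k => (T.rf_not _ _ k).mp e, ?_⟩
  rintro ⟨w, hw⟩
  rw [← hw, T.rf_τ]
  trivial

theorem isCompact_tube (r : ℝ) : IsCompact (T.τ '' (univ ×ˢ closedBall (0 : ℂ) r)) :=
  (isCompact_univ.prod (isCompact_closedBall _ _)).image T.ld.contMDiff.continuous

theorem continuous_rf {g : ℝ → ℝ} (hg : ContinuousOn g (Ici 0)) {d : ℝ} (hd : Tendsto g atTop (𝓝 d)) :
    Continuous (T.rf g d) := by
  rw [continuous_iff_continuousAt]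
  intro p
  by_cases h : p ∈ range T.τ
  · obtain ⟨w, rfl⟩ := h
    rw [← (ld_isOpenEmbedding T.ld T.inj).continuousAt_iff]
    exact ((hg.comp_continuous continuous_snd.norm fun w => norm_nonneg _).congr
      fun w => (T.rf_τ g d w).symm).continuousAt
  · rw [ContinuousAt, T.rf_not _ _ h, tendsto_def]
    intro s hs
    obtain ⟨r, hr⟩ := eventually_atTop.1 (hd.eventually hs)
    filter_upwards [(T.isCompact_tube r).isClosed.isOpen_compl.mem_nhds fun k => h (image_subset_range _ _ k)]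
      with q hq
    by_cases k : q ∈ range T.τ
    · obtain ⟨w, rfl⟩ := k
      rw [mem_preimage, T.rf_τ]
      exact hr _ (le_of_not_ge fun e => hq ⟨w, ⟨mem_univ _, mem_closedBall_zero_iff.2 e⟩, rfl⟩)
    · rw [mem_preimage, T.rf_not _ _ k]
      exact mem_of_mem_nhds hs

theorem continuous_hf {g : ℝ → ℝ} (hg : ContinuousOn g (Ici 0)) {d : ℝ} (hd : Tendsto g atTop (𝓝 d)) :
    Continuous (T.hf v g d) :=
  T.continuous_of (((T.continuous_rf hg hd).comp continuous_fst).continuousOn.congr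
      fun _ h => T.hf_ext _ _ h.1)
    (fun _ _ hu => (hg.comp_continuous (continuous_snd.comp continuous_fst).norm
      fun _ => norm_nonneg _).continuousOn.congr fun _ h => T.hf_rod _ _ hu h)
    fun _ _ hu _ => (hg.comp_continuous (f := fun z : ℂ × ℂ => 2 * ‖z.1‖ * ‖z.2‖) (by fun_prop)
      fun z => show (0 : ℝ) ≤ _ by positivity).continuousOn.congr fun _ h => T.hf_vtx _ _ hu h

theorem cont_inv : ContinuousOn (fun r : ℝ => (1 + r)⁻¹) (Ici 0) :=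
  ContinuousOn.inv₀ (by fun_prop) fun r hr => by have : (0 : ℝ) ≤ r := hr; positivity

theorem tend_inv : Tendsto (fun r : ℝ => (1 + r)⁻¹) atTop (𝓝 0) :=
  tendsto_inv_atTop_zero.comp (tendsto_atTop_add_const_left _ _ tendsto_id)

theorem continuous_eta : Continuous (T.eta v) := T.continuous_hf cont_inv tend_inv

theorem rf_lt {q : N} (h : q ∈ T.Ex) : T.rf (fun r : ℝ => (1 + r)⁻¹) 0 q < 1 := by
  by_cases k : q ∈ range T.τ
  · obtain ⟨w, rfl⟩ := k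
    rw [T.rf_τ]
    exact inv_lt_one_of_one_lt₀ (lt_add_of_pos_right _ (norm_pos_iff.2 (T.τ_mem.1 h)))
  · rw [T.rf_not _ _ k]
    exact one_pos

/-- the range of a rod chart -/
theorem mem_rod (hu : Uni a b) {p : X T v} (h : p ∈ T.tor v) (h' : T.yy v p ≠ 0 ∨ T.time v p ∈ Jr v a) :
    ∃ w ∈ Ur v a, T.rod v hu w = p := by
  have k : ∀ x u, x ∈ Jr v a → T.nf v p = .inr (x, u) → ∃ w ∈ Ur v a, T.rod v hu w = p := by
    intro x u hx e
    refine ⟨((u ^ dt (v x) b, 0), x), Or.inr hx, T.nf_injective v ?_⟩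
    rw [T.nf_rod hu (Or.inr hx), T.Φr_zero rfl, e, ← zpow_mul, ((Jr.pm hx).uni hu).sq, zpow_one]
  induction p using T.ind with
  | h1 q x hq =>
    obtain ⟨w, rfl⟩ := (T.ext_mem_tor (p := (q, x)) hq).1 h
    have hw := T.τ_mem.1 hq
    refine ⟨(glI a b w, x), Or.inl (gl_ne.2 hw), ?_⟩
    rw [T.rod_eq_ext hu (gl_ne.2 hw), gl_glI hu hw]
  | h2 a' b' hu' u x hx =>
    rw [T.yy_rod hu' (Or.inr hx), T.time_rod hu' (Or.inr hx)] at h'
    exact k x _ (h'.resolve_left fun k => k norm_zero) ((T.nf_rod hu' (Or.inr hx)).trans (T.Φr_zero rfl))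
  | h3 a' b' hu' c hc =>
    rw [T.yy_vtx hu' (zero_mem_Uv hc), T.time_vtx hu' (zero_mem_Uv hc)] at h'
    exact k c 1 (by simpa [tm] using h') ((T.nf_vtx hu' (zero_mem_Uv hc)).trans T.Φv_zero)

theorem exists_hR {w : (Circle × ℂ) × ℝ} (h : w.1.2 ≠ 0 ∨ c < w.2) : ∃ z : ℂ × ℂ, z.1 ≠ 0 ∧ hR c z = w := by
  have h1 : (w.1, w.2 - c) ∈ hypT := h.imp_right sub_pos.2
  have h2 := hyp_hypI h1
  refine ⟨_, hypI_ne h1, Prod.ext (congrArg Prod.fst h2 :) ?_⟩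
  exact (congrArg (c + ·) (congrArg Prod.snd h2)).trans (add_sub_cancel _ _)

theorem exists_hL {w : (Circle × ℂ) × ℝ} (h : w.1.2 ≠ 0 ∨ w.2 < c) : ∃ z : ℂ × ℂ, z.2 ≠ 0 ∧ hL c z = w := by
  obtain ⟨z, h1, h2⟩ := exists_hR (c := -c) (w := (w.1, -w.2)) (h.imp_right neg_lt_neg)
  refine ⟨z.swap, h1, Prod.ext (congrArg Prod.fst h2 :) ?_⟩
  have : tm (-c) z = -w.2 := congrArg Prod.snd h2
  simp only [hL, tm, Prod.fst_swap, Prod.snd_swap] at this ⊢
  linarith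

/-- the range of a vertex chart -/
theorem mem_vtx (hu : Uni a b) {p : X T v} (h : p ∈ T.tor v)
    (h' : T.yy v p ≠ 0 ∨ T.time v p ∈ Jv v a b c) : ∃ z ∈ Uv v a b c, T.vtx v hu c z = p := by
  by_cases h1 : T.yy v p ≠ 0 ∨ c < T.time v p
  · obtain ⟨w, hw, rfl⟩ := T.mem_rod hu.symm h (by
      rcases h' with k | k
      exacts [Or.inl k, h1.imp_right (Jv.right k)])
    rw [T.yy_rod _ hw, T.time_rod _ hw, norm_ne_zero_iff] at h1 h'
    obtain ⟨z, z1, rfl⟩ := exists_hR h1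
    have hz : z ∈ Uv v a b c := h'.imp_left fun k => ⟨z1, mt (hR_ne z1).2 k⟩
    exact ⟨z, hz, T.vtx_eq_R hu hz z1⟩
  have h2 := h'.resolve_left fun k => h1 (Or.inl k)
  rcases (le_of_not_gt fun k => h1 (Or.inr k)).lt_or_eq with h3 | h3
  · obtain ⟨w, hw, rfl⟩ := T.mem_rod hu h (Or.inr (Jv.left h2 h3))
    rw [T.time_rod _ hw] at h2 h3
    obtain ⟨z, z1, rfl⟩ := exists_hL (Or.inr h3)
    exact ⟨z, Or.inr h2, T.vtx_eq_L hu (Or.inr h2) z1⟩
  · rw [h3] at h2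
    refine ⟨0, zero_mem_Uv h2, T.nf_injective v ?_⟩
    rw [T.nf_vtx hu (zero_mem_Uv h2), T.Φv_zero]
    induction p using T.ind with
    | h1 q x hq =>
      obtain ⟨w, rfl⟩ := (T.ext_mem_tor (p := (q, x)) hq).1 h
      exact absurd (Or.inl (T.yy_ext (T.τ_mem.1 hq) x ▸ norm_ne_zero_iff.2 (T.τ_mem.1 hq))) h1
    | h2 a' b' hu' u x hx =>
      obtain rfl : x = c := (T.time_rod hu' (Or.inr hx)).symm.trans h3
      exact absurd (Jv.zero h2) ((Jr.pm hx).ne_zero hu')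
    | h3 a' b' hu' c' hc =>
      obtain rfl : c' = c := by simpa [tm] using (T.time_vtx hu' (zero_mem_Uv hc)).symm.trans h3
      rw [T.nf_vtx hu' (zero_mem_Uv hc), T.Φv_zero]

/-- a point is in the exterior chart or on the axis -/
theorem ext_or_axis (p : X T v) : (∃ q : N × ℝ, q.1 ∈ T.Ex ∧ T.ext v q = p) ∨
    (p ∈ T.tor v ∧ T.yy v p = 0 ∧ T.eta v p = 1 ∧ ∃ a b c, Uni a b ∧ T.time v p ∈ Jv v a b c) := by
  induction p using T.ind with
  | h1 q x hq => exact Or.inl ⟨_, hq, rfl⟩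
  | h2 a b hu u x hx =>
    refine Or.inr ⟨T.rod_mem_tor hu (Or.inr hx), (T.yy_rod hu (Or.inr hx)).trans norm_zero,
      (T.hf_rod _ _ hu (Or.inr hx)).trans (by simp), a, b, x + 1, hu, ?_⟩
    rw [T.time_rod hu (Or.inr hx)]
    exact Jv.of_left hx (lt_add_one x)
  | h3 a b hu c hc =>
    refine Or.inr ⟨T.vtx_mem_tor hu (zero_mem_Uv hc), (T.yy_vtx hu (zero_mem_Uv hc)).trans (by simp),
      (T.hf_vtx _ _ hu (zero_mem_Uv hc)).trans (by simp), a, b, c, hu, ?_⟩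
    rw [T.time_vtx hu (zero_mem_Uv hc)]
    simpa [tm] using hc

theorem eta_ext_lt {q : N × ℝ} (h : q.1 ∈ T.Ex) : T.eta v (T.ext v q) < 1 :=
  (T.hf_ext _ _ h).trans_lt (T.rf_lt h)

instance : T2Space (X T v) := by
  refine ⟨fun p q hpq => ?_⟩
  by_cases ht : T.time v p = T.time v q
  swap
  · exact separated_by_continuous T.continuous_time ht
  rcases T.ext_or_axis p with ⟨s, hs, rfl⟩ | ⟨p1, -, p2, a, b, c, hu, hp⟩ <;>
    rcases T.ext_or_axis q with ⟨s', hs', rfl⟩ | ⟨q1, -, q2, -⟩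
  · have : T2Space ((T.go v).P .ext).M := inferInstanceAs (T2Space (N × ℝ))
    exact (T.go v).sep_of_piece (i := .ext) ⟨hs, mem_univ _⟩ ⟨hs', mem_univ _⟩ hpq
  · exact separated_by_continuous T.continuous_eta (q2 ▸ (T.eta_ext_lt hs).ne)
  · exact separated_by_continuous T.continuous_eta (p2 ▸ (T.eta_ext_lt hs').ne')
  · obtain ⟨z, hz, rfl⟩ := T.mem_vtx hu p1 (Or.inr hp)
    obtain ⟨z', hz', rfl⟩ := T.mem_vtx hu q1 (Or.inr (ht ▸ hp))
    have : T2Space ((T.go v).P (.vtx a b hu c)).M := inferInstanceAs (T2Space (ℂ × ℂ))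
    exact (T.go v).sep_of_piece (i := .vtx a b hu c) hz hz' hpq

/-- `(x - c)² + y² = (‖z₁‖² + ‖z₂‖²)²` in a vertex chart -/
theorem rad_vtx (hu : Uni a b) {z : ℂ × ℂ} (h : z ∈ Uv v a b c) :
    (T.time v (T.vtx v hu c z) - c) ^ 2 + T.yy v (T.vtx v hu c z) ^ 2 = (‖z.1‖ ^ 2 + ‖z.2‖ ^ 2) ^ 2 := by
  rw [T.time_vtx hu h, T.yy_vtx hu h, tm]
  ring

theorem isClosed_yy (R : ℝ) : IsClosed {z : ℂ × ℂ | 2 * ‖z.1‖ * ‖z.2‖ ≤ R} :=
  isClosed_le (by fun_prop) continuous_const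

theorem isCompact_box (c A B R : ℝ) :
    IsCompact {z : ℂ × ℂ | tm c z ∈ Icc A B ∧ 2 * ‖z.1‖ * ‖z.2‖ ≤ R} := by
  refine Metric.isCompact_of_isClosed_isBounded ((isClosed_Icc.preimage (continuous_tm c)).inter
    (isClosed_yy R)) ?_
  refine (isBounded_closedBall (x := (0 : ℂ × ℂ)) (r := |A - c| + |B - c| + |R| + 1)).subset ?_
  rintro z ⟨⟨h1, h2⟩, h3⟩
  unfold tm at h1 h2
  have := neg_abs_le (A - c)
  have := le_abs_self (B - c)
  have := le_abs_self R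
  have := abs_nonneg (A - c)
  have := abs_nonneg (B - c)
  have := norm_nonneg z.1
  have := norm_nonneg z.2
  rw [mem_closedBall_zero_iff, Prod.norm_def, max_le_iff]
  rcases le_total ‖z.1‖ ‖z.2‖ with h | h <;> constructor <;> nlinarith

/-- compactness of bounded parts of the toric part -/
theorem isCompact_tor {K : Set ℝ} (hK : IsCompact K) (hv : ∀ x ∈ K, ∃ a b c, Uni a b ∧ x ∈ Jv v a b c)
    (R : ℝ) : IsCompact {p | p ∈ T.tor v ∧ T.time v p ∈ K ∧ T.yy v p ≤ R} := by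
  have key : ∀ x ∈ K, ∃ s ∈ 𝓝 x, ∀ L, IsClosed L → L ⊆ s →
      IsCompact {p | p ∈ T.tor v ∧ T.time v p ∈ L ∧ T.yy v p ≤ R} := by
    intro x hx
    obtain ⟨a, b, c, hu, h⟩ := hv x hx
    refine ⟨Jv v a b c ∩ Icc (x - 1) (x + 1), inter_mem (isOpen_interior.mem_nhds h)
      (Icc_mem_nhds (by linarith) (by linarith)), fun L hL hs => ?_⟩
    have h1 : IsCompact {z : ℂ × ℂ | tm c z ∈ L ∧ 2 * ‖z.1‖ * ‖z.2‖ ≤ R} :=
      (isCompact_box c (x - 1) (x + 1) R).of_isClosed_subset ((hL.preimage (continuous_tm c)).inter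
        (isClosed_yy R)) fun z hz => ⟨(hs hz.1).2, hz.2⟩
    have h2 : {z : ℂ × ℂ | tm c z ∈ L ∧ 2 * ‖z.1‖ * ‖z.2‖ ≤ R} ⊆ Uv v a b c :=
      fun z hz => Or.inr (hs hz.1).1
    convert h1.image_of_continuousOn ((T.vtx v hu c).contMDiffOn_toFun.continuousOn.mono h2) using 1
    ext p
    constructor
    · rintro ⟨p1, p2, p3⟩
      obtain ⟨z, hz, rfl⟩ := T.mem_vtx hu p1 (Or.inr (hs p2).1)
      exact ⟨z, ⟨T.time_vtx hu hz ▸ p2, T.yy_vtx hu hz ▸ p3⟩, rfl⟩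
    · rintro ⟨z, hz, rfl⟩
      exact ⟨T.vtx_mem_tor hu (h2 hz), (T.time_vtx hu (h2 hz)).symm ▸ hz.1,
        (T.yy_vtx hu (h2 hz)).symm ▸ hz.2⟩
  choose! s hs hc using key
  choose! s' h1 h2 h3 using fun x hx => exists_mem_nhds_isClosed_subset (hs x hx)
  obtain ⟨t, ht, hc'⟩ := hK.elim_nhds_subcover s' h1
  convert t.isCompact_biUnion fun x hx => hc x (ht x hx) (K ∩ s' x) (hK.isClosed.inter (h2 x (ht x hx)))
    (inter_subset_right.trans (h3 x (ht x hx))) using 1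
  ext p
  simp only [mem_iUnion, mem_ofPred_eq]
  constructor
  · rintro ⟨p1, p2, p3⟩
    obtain ⟨x, hx, e⟩ := mem_iUnion₂.1 (hc' p2)
    exact ⟨x, hx, p1, ⟨p2, e⟩, p3⟩
  · rintro ⟨x, -, p1, p2, p3⟩
    exact ⟨p1, p2.1, p3⟩

/-- the time function is proper -/
theorem isCompact_time [CompactSpace N] {K : Set ℝ} (hK : IsCompact K)
    (hv : ∀ x ∈ K, ∃ a b c, Uni a b ∧ x ∈ Jv v a b c) : IsCompact (T.time v ⁻¹' K) := by
  have h1 : IsCompact (T.τ '' (univ ×ˢ ball (0 : ℂ) 1))ᶜ :=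
    ((ld_isOpenEmbedding T.ld T.inj).isOpenMap _ (isOpen_univ.prod isOpen_ball)).isClosed_compl.isCompact
  have h2 : (T.τ '' (univ ×ˢ ball (0 : ℂ) 1))ᶜ ×ˢ K ⊆ T.Ex ×ˢ univ := fun q hq =>
    ⟨fun u e => hq.1 ⟨(u, 0), ⟨mem_univ _, mem_ball_self one_pos⟩, e⟩, mem_univ _⟩
  refine (((h1.prod hK).image_of_continuousOn ((T.ext v).contMDiffOn_toFun.continuousOn.mono h2)).union
    (T.isCompact_tor hK hv 1)).of_isClosed_subset (hK.isClosed.preimage T.continuous_time) fun p hp => ?_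
  rcases T.ext_or_axis p with ⟨s, hs, rfl⟩ | ⟨p1, p2, -⟩
  · by_cases k : s.1 ∈ T.τ '' (univ ×ˢ ball (0 : ℂ) 1)
    · obtain ⟨q, x⟩ := s
      obtain ⟨w, hw, rfl⟩ := k
      exact Or.inr ⟨(T.ext_mem_tor hs).2 ⟨w, rfl⟩, hp,
        (T.yy_ext (T.τ_mem.1 hs) x).trans_le (mem_ball_zero_iff.1 hw.2).le⟩
    · exact Or.inl ⟨s, ⟨k, T.time_ext (v := v) hs ▸ hp⟩, rfl⟩
  · exact Or.inr ⟨p1, hp, p2.trans_le zero_le_one⟩

theorem secondCountable [SecondCountableTopology N] (hv : Loc v) : SecondCountableTopology (X T v) := by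
  have : LocallyCompactSpace N := Manifold.locallyCompact_of_finiteDimensional IN
  have := (T.isOpen_Ex.prod (isOpen_univ (X := ℝ))).locallyCompactSpace
  have h1 : IsSigmaCompact (T.Ex ×ˢ (univ : Set ℝ)) := isSigmaCompact_iff_sigmaCompactSpace.2 inferInstance
  have h2 := h1.image_of_continuousOn (T.ext v).contMDiffOn_toFun.continuousOn
  have h3 := isSigmaCompact_iUnion_of_isCompact _ fun n : ℕ =>
    T.isCompact_tor (isCompact_Icc (a := -(n : ℝ)) (b := n)) (fun x _ => hv x) n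
  have : SigmaCompactSpace (X T v) := by
    rw [← isSigmaCompact_univ_iff]
    convert isSigmaCompact_iUnion (fun b : Bool => if b then _ else _) fun b => b.rec h2 h3 using 1
    refine (eq_univ_of_forall fun p => ?_).symm
    rcases T.ext_or_axis p with ⟨s, hs, rfl⟩ | ⟨p1, p2, -⟩
    · exact mem_iUnion.2 ⟨false, s, ⟨hs, mem_univ _⟩, rfl⟩
    · obtain ⟨n, hn⟩ := exists_nat_ge |T.time v p|
      exact mem_iUnion.2 ⟨true, mem_iUnion.2 ⟨n, p1, abs_le.1 hn, p2.trans_le n.cast_nonneg⟩⟩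
  exact ChartedSpace.secondCountable_of_sigmaCompact E4 _

end Tb

end Crest.Agent.X212.Rod53
end
end

-- ▼ part X212/Rod53/Band

/-!
# X212 / Rod53, part Band (helper53): necks of the rod manifold

* `T.bs v`, `T.ov v O` : the base map `(time, height)` and the part of the toric part over `O ⊆ ℝ × ℝ`;
  `T.rr v c` the base distance from `(c, 0)`, `T.disc v c S = {toric, rr ∈ S}`;
* `Fl T a b IY Y` : a filling of slope `a`; `F.cy v hu : Y × ℝ → X T v` with source `Y × Jr v a`; `F.yb` (vertical neck);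
* `T.sb hu c ρ : S³ × ℝ → X T v` (half circles between the rods `a` and `b`);
* `T.rb hu c ρ : (S¹ × S²) × ℝ → X T v` (half circles between two rods of slope `± a`);
* `sig A B : ℝ → (A, B)`; `ofTube`, `ofFill` (Ext52); `Tb.me` : the word as a manifold with two ends.
-/

set_option autoImplicit false
set_option linter.unusedSectionVars false

open Set Filter Topology Function Metric TopologicalSpace
open scoped ContDiff Manifold ComplexConjugate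

noncomputable section

namespace Crest.Agent.X212.Rod53

open Crest.Agent.X212.Glue52 Crest.Agent.X212.Cyl58

/-- Euclidean three-space -/
abbrev E3 : Type := EuclideanSpace ℝ (Fin 3)

theorem uni_std : Uni (0, 1) (1, 0) := Or.inr (by simp [dt])

/-- an increasing diffeomorphism `ℝ → (A, B)` with `0 ↦ (A + B) / 2` -/
def sig (A B t : ℝ) : ℝ := (A + B) / 2 + (B - A) / Real.pi * Real.arctan t

theorem sig_zero (A B : ℝ) : sig A B 0 = (A + B) / 2 := by simp [sig]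

theorem strictMono_sig {A B : ℝ} (h : A < B) : StrictMono (sig A B) := fun _ _ e =>
  add_lt_add_right (mul_lt_mul_of_pos_left (Real.arctan_strictMono e)
    (div_pos (sub_pos.2 h) Real.pi_pos)) _

theorem isOE_arctan : IsOE 𝓘(ℝ, ℝ) 𝓘(ℝ, ℝ) Real.arctan :=
  ⟨Real.arctan_injective, fun t => Cyl58.ld_of_inverse (g := Real.tan) isOpen_univ isOpen_Ioo
    Real.contDiff_arctan.contMDiff.contMDiffOn
    (fun _ hx => (Real.contDiffAt_tan.2 (Real.cos_pos_of_mem_Ioo hx).ne').contMDiffAt.contMDiffWithinAt)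
    (fun x _ => Real.arctan_mem_Ioo x) (fun _ _ => mem_univ _) (fun x _ => Real.tan_arctan x)
    (fun _ hy => Real.arctan_tan hy.1 hy.2) (mem_univ t)⟩

theorem isOE_aff (c : ℝ) {s : ℝ} (hs : s ≠ 0) : IsOE 𝓘(ℝ, ℝ) 𝓘(ℝ, ℝ) fun t : ℝ => c + s * t :=
  IsOE.of_diffeo (diffeoOf (fun t : ℝ => c + s * t) (fun t : ℝ => (t - c) / s)
    (ContDiff.contMDiff (by fun_prop)) (ContDiff.contMDiff (by fun_prop))
    (fun t => by field_simp; ring) fun t => by field_simp; ring)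

theorem isOE_sig {A B : ℝ} (h : A < B) : IsOE 𝓘(ℝ, ℝ) 𝓘(ℝ, ℝ) (sig A B) :=
  (isOE_aff _ (div_pos (sub_pos.2 h) Real.pi_pos).ne').comp isOE_arctan

theorem range_sig {A B : ℝ} (h : A < B) : range (sig A B) = Ioo A B := by
  have h0 := Real.pi_pos
  have h1 := sub_pos.2 h
  ext x
  constructor
  · rintro ⟨t, rfl⟩
    obtain ⟨k1, k2⟩ := Real.arctan_mem_Ioo t
    have e : (B - A) / Real.pi * (Real.pi / 2) = (B - A) / 2 := by field_simp
    have k3 := mul_lt_mul_of_pos_left k1 (div_pos h1 h0)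
    have k4 := mul_lt_mul_of_pos_left k2 (div_pos h1 h0)
    rw [mul_neg, e] at k3
    rw [e] at k4
    constructor <;> unfold sig <;> linarith
  · intro hx
    refine ⟨Real.tan ((x - (A + B) / 2) * Real.pi / (B - A)), ?_⟩
    rw [sig, Real.arctan_tan]
    · field_simp
      ring
    · rw [lt_div_iff₀ h1]
      nlinarith [hx.1]
    · rw [div_lt_iff₀ h1]
      nlinarith [hx.2]

theorem sig_mem {A B : ℝ} (h : A < B) (t : ℝ) : sig A B t ∈ Ioo A B := range_sig h ▸ mem_range_self t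

/-- `ℝ⁴ = ℂ²` -/
def L4 : E4 ≃L[ℝ] ℂ × ℂ :=
  LinearEquiv.toContinuousLinearEquiv
    { toFun x := (⟨x 0, x 1⟩, ⟨x 2, x 3⟩)
      invFun z := !₂[z.1.re, z.1.im, z.2.re, z.2.im]
      map_add' _ _ := rfl
      map_smul' _ _ := by ext <;> simp [Complex.ext_iff]
      left_inv x := by ext i; fin_cases i <;> rfl
      right_inv _ := rfl }

theorem L4_apply (x : E4) : L4 x = (⟨x 0, x 1⟩, ⟨x 2, x 3⟩) := rfl

theorem norm_L4 (x : E4) : ‖(L4 x).1‖ ^ 2 + ‖(L4 x).2‖ ^ 2 = ‖x‖ ^ 2 := by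
  rw [EuclideanSpace.real_norm_sq_eq, Fin.sum_univ_four, L4_apply, Complex.sq_norm, Complex.sq_norm,
    Complex.normSq_mk, Complex.normSq_mk]
  ring

/-- `ℝ³ = ℂ × ℝ` -/
def L3 : E3 ≃L[ℝ] ℂ × ℝ :=
  LinearEquiv.toContinuousLinearEquiv
    { toFun x := (⟨x 0, x 1⟩, x 2)
      invFun z := !₂[z.1.re, z.1.im, z.2]
      map_add' _ _ := rfl
      map_smul' _ _ := by ext <;> simp [Complex.ext_iff]
      left_inv x := by ext i; fin_cases i <;> rfl
      right_inv _ := rfl }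

theorem L3_apply (x : E3) : L3 x = (⟨x 0, x 1⟩, x 2) := rfl

theorem norm_L3 (x : E3) : (L3 x).2 ^ 2 + ‖(L3 x).1‖ ^ 2 = ‖x‖ ^ 2 := by
  rw [EuclideanSpace.real_norm_sq_eq, Fin.sum_univ_three, L3_apply, Complex.sq_norm, Complex.normSq_mk]
  ring

instance : Fact (Module.finrank ℝ E4 = 3 + 1) := ⟨by simp⟩
instance : Fact (Module.finrank ℝ E3 = 2 + 1) := ⟨by simp⟩

/-- `S¹ × ℝ³ →` rod chart, centred at `c` -/
def rc (c : ℝ) (p : Circle × E3) : (Circle × ℂ) × ℝ := ((p.1, (L3 p.2).1), c + (L3 p.2).2)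

theorem isOE_rc (c : ℝ) : IsOE ((𝓡 1).prod 𝓘(ℝ, E3)) IR (rc c) := by
  have h1 : ∀ {F : Type} [NormedAddCommGroup F] [NormedSpace ℝ F] (l : E3 →L[ℝ] F),
      ContMDiff ((𝓡 1).prod 𝓘(ℝ, E3)) 𝓘(ℝ, F) ∞ fun p : Circle × E3 => l p.2 :=
    fun l => l.contDiff.contMDiff.comp contMDiff_snd
  refine IsOE.of_diffeo (diffeoOf (rc c) (fun w => (w.1.1, L3.symm (w.1.2, w.2 - c)))
    ((contMDiff_fst.prodMk (h1 ((ContinuousLinearMap.fst ℝ ℂ ℝ).comp L3.toContinuousLinearMap))).prodMk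
      (contMDiff_const.add (h1 ((ContinuousLinearMap.snd ℝ ℂ ℝ).comp L3.toContinuousLinearMap))))
    ((contMDiff_fst.comp contMDiff_fst).prodMk (L3.symm.contDiff.contMDiff.comp
      ((contMDiff_snd.comp contMDiff_fst).prodMk_space (contMDiff_snd.sub contMDiff_const))))
    (fun p => ?_) fun w => ?_)
  · simp [rc]
  · simp [rc]

theorem rc_surj (c : ℝ) (w : (Circle × ℂ) × ℝ) : ∃ p, rc c p = w :=
  ⟨(w.1.1, L3.symm (w.1.2, w.2 - c)), by simp [rc]⟩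

/-- radial parametrisation of a shell -/
theorem isOE_shell {E : Type} [NormedAddCommGroup E] [InnerProductSpace ℝ E] {n : ℕ}
    [Fact (Module.finrank ℝ E = n + 1)] {ρ : ℝ → ℝ} (hρ : IsOE 𝓘(ℝ, ℝ) 𝓘(ℝ, ℝ) ρ) (h0 : ∀ s, 0 < ρ s) :
    IsOE ((𝓡 n).prod 𝓘(ℝ, ℝ)) 𝓘(ℝ, E) fun p : sphere (0 : E) 1 × ℝ => ρ p.2 • (p.1 : E) := by
  have h1 : IsOE 𝓘(ℝ, ℝ) 𝓘(ℝ, ℝ) fun s => Real.log (ρ s) :=
    isOE_exp.of_comp_left (by convert hρ using 1; exact funext fun s => Real.exp_log (h0 s))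
  convert isOE_pol.comp ((IsOE.id (IA := 𝓡 n) (A := sphere (0 : E) 1)).prodMap h1) using 1
  exact funext fun p => (pol_log p.1 (h0 p.2)).symm

theorem isOE_sqrt {ρ : ℝ → ℝ} (hρ : IsOE 𝓘(ℝ, ℝ) 𝓘(ℝ, ℝ) ρ) (h0 : ∀ s, 0 < ρ s) :
    IsOE 𝓘(ℝ, ℝ) 𝓘(ℝ, ℝ) fun s => √(ρ s) := by
  have h1 : IsOE 𝓘(ℝ, ℝ) 𝓘(ℝ, ℝ) fun s => Real.log (ρ s) :=
    isOE_exp.of_comp_left (by convert hρ using 1; exact funext fun s => Real.exp_log (h0 s))
  convert isOE_exp.comp ((isOE_aff 0 (s := 1 / 2) (by norm_num)).comp h1) using 1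
  funext s
  simp only [comp_apply, zero_add]
  rw [Real.sqrt_eq_rpow, Real.rpow_def_of_pos (h0 s), mul_comm]

theorem exists_shell {E : Type} [NormedAddCommGroup E] [InnerProductSpace ℝ E] {x : E} {r : ℝ}
    (hr : 0 < r) (h : ‖x‖ = r) : ∃ u : sphere (0 : E) 1, r • (u : E) = x :=
  ⟨⟨r⁻¹ • x, by simp [norm_smul, h, abs_of_pos hr, hr.ne']⟩, by simp [smul_smul, hr.ne']⟩

variable {EN HN : Type} [NormedAddCommGroup EN] [NormedSpace ℝ EN] [FiniteDimensional ℝ EN]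
  [TopologicalSpace HN] {IN : ModelWithCorners ℝ EN HN} [IN.Boundaryless]
  {N : Type} [TopologicalSpace N] [ChartedSpace HN N] [IsManifold IN ∞ N] [T2Space N]

namespace Tb

variable (T : Tb IN N) {v : ℝ → Z2} {a b : Z2} {c : ℝ}

theorem eta_of_tor {p : X T v} (h : p ∈ T.tor v) : 0 ≤ T.yy v p ∧ T.eta v p = (1 + T.yy v p)⁻¹ := by
  obtain ⟨w, hw, rfl⟩ | h' : (∃ w ∈ Ur v (0, 1), T.rod v uni_std w = p) ∨ T.yy v p = 0 :=
    (em _).symm.imp_left fun k => T.mem_rod uni_std h (Or.inl k)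
  · rw [T.yy_rod _ hw]
    exact ⟨norm_nonneg _, T.hf_rod _ _ _ hw⟩
  · refine ⟨h'.ge, ?_⟩
    rcases T.ext_or_axis p with ⟨⟨q, x⟩, hs, rfl⟩ | ⟨-, -, k, -⟩
    · obtain ⟨w, rfl⟩ := (T.ext_mem_tor hs).1 h
      exact absurd (norm_eq_zero.1 ((T.yy_ext (T.τ_mem.1 hs) x).symm.trans h')) (T.τ_mem.1 hs)
    · rw [k, h']
      simp

theorem eta_of_not {p : X T v} (h : p ∉ T.tor v) : T.eta v p = 0 := by
  rcases T.ext_or_axis p with ⟨s, hs, rfl⟩ | ⟨k, -⟩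
  · exact (T.hf_ext _ _ hs).trans (T.rf_not _ _ fun k => h ((T.ext_mem_tor hs).2 k))
  · exact absurd k h

theorem mem_tor {p : X T v} : p ∈ T.tor v ↔ 0 < T.eta v p := by
  refine ⟨fun h => ?_, fun h => by_contra fun k => h.ne' (T.eta_of_not k)⟩
  obtain ⟨h1, h2⟩ := T.eta_of_tor h
  rw [h2]
  positivity

theorem isOpen_tor : IsOpen (T.tor v) := by
  rw [show T.tor v = {p | 0 < T.eta v p} from Set.ext fun _ => T.mem_tor]
  exact isOpen_lt continuous_const T.continuous_eta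

theorem continuousOn_yy : ContinuousOn (T.yy v) (T.tor v) := by
  refine ((T.continuous_eta.continuousOn.inv₀ fun p hp => (T.mem_tor.1 hp).ne').sub
    (continuousOn_const (c := 1))).congr fun p hp => ?_
  show _ = (T.eta v p)⁻¹ - 1
  rw [(T.eta_of_tor hp).2, inv_inv, add_sub_cancel_left]

theorem isClosed_le_yy (R : ℝ) : IsClosed {p | p ∈ T.tor v ∧ T.yy v p ≤ R} := by
  have h0 : 0 < 1 + |R| := by positivity
  have k := ((T.continuousOn_yy (v := v)).mono (t := {p | (1 + |R|)⁻¹ ≤ T.eta v p})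
    (fun p hp => T.mem_tor.2 ((inv_pos.2 h0).trans_le hp))).preimage_isClosed_of_isClosed
    (isClosed_le continuous_const T.continuous_eta) (isClosed_Iic (a := R))
  convert k using 1
  ext p
  refine ⟨fun h => ⟨?_, h.2⟩, fun h => ⟨T.mem_tor.2 ((inv_pos.2 h0).trans_le h.1), h.2⟩⟩
  obtain ⟨h1, h2⟩ := T.eta_of_tor h.1
  rw [mem_ofPred_eq, h2]
  exact inv_anti₀ (by positivity) (by linarith [h.2, le_abs_self R])

variable (v) in
/-- the base map -/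
def bs (p : X T v) : ℝ × ℝ := (T.time v p, T.yy v p)

variable (v) in
/-- the toric part over a subset of the half plane -/
def ov (O : Set (ℝ × ℝ)) : Set (X T v) := T.tor v ∩ T.bs v ⁻¹' O

theorem continuousOn_bs : ContinuousOn (T.bs v) (T.tor v) :=
  T.continuous_time.continuousOn.prodMk T.continuousOn_yy

theorem isOpen_ov {O : Set (ℝ × ℝ)} (h : IsOpen O) : IsOpen (T.ov v O) :=
  T.continuousOn_bs.isOpen_inter_preimage T.isOpen_tor h

theorem isClosed_ov {O : Set (ℝ × ℝ)} (h : IsClosed O) {R : ℝ} (hR : ∀ q ∈ O, q.2 ≤ R) :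
    IsClosed (T.ov v O) := by
  convert (T.continuousOn_bs.mono fun p hp => hp.1).preimage_isClosed_of_isClosed
    (T.isClosed_le_yy (v := v) R) h using 1
  ext p
  exact ⟨fun k => ⟨⟨k.1, hR _ k.2⟩, k.2⟩, fun k => ⟨k.1.1, k.2⟩⟩

theorem isCompact_ov {O : Set (ℝ × ℝ)} (h : IsCompact O)
    (hv : ∀ q ∈ O, ∃ a b c, Uni a b ∧ q.1 ∈ Jv v a b c) : IsCompact (T.ov v O) := by
  obtain ⟨R, hR⟩ := (h.image continuous_snd).bddAbove
  refine (T.isCompact_tor (h.image continuous_fst) (by rintro _ ⟨q, hq, rfl⟩; exact hv q hq) R).of_isClosed_subset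
    (T.isClosed_ov h.isClosed fun q hq => hR ⟨q, hq, rfl⟩) fun p hp => ⟨hp.1, ⟨_, hp.2, rfl⟩, hR ⟨_, hp.2, rfl⟩⟩

variable (v) in
/-- the base distance from the point `(c, 0)` of the axis -/
def rr (c : ℝ) (p : X T v) : ℝ := √((T.time v p - c) ^ 2 + T.yy v p ^ 2)

variable (v) in
/-- half discs, half circles, half annuli -/
def disc (c : ℝ) (S : Set ℝ) : Set (X T v) := T.ov v {q | √((q.1 - c) ^ 2 + q.2 ^ 2) ∈ S}

theorem mem_disc {S : Set ℝ} {p : X T v} : p ∈ T.disc v c S ↔ p ∈ T.tor v ∧ T.rr v c p ∈ S := Iff.rfl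

theorem isOpen_disc {S : Set ℝ} (h : IsOpen S) : IsOpen (T.disc v c S) :=
  T.isOpen_ov (h.preimage (by fun_prop))

theorem isClosed_disc {S : Set ℝ} (h : IsClosed S) {R : ℝ} (hR : ∀ r ∈ S, r ≤ R) :
    IsClosed (T.disc v c S) :=
  T.isClosed_ov (h.preimage (by fun_prop)) fun _ hq =>
    (Real.le_sqrt_of_sq_le (le_add_of_nonneg_left (sq_nonneg _))).trans (hR _ hq)

theorem abs_time_le (c : ℝ) (p : X T v) : |T.time v p - c| ≤ T.rr v c p :=
  Real.abs_le_sqrt (le_add_of_nonneg_right (sq_nonneg _))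

theorem yy_le (c : ℝ) (p : X T v) : T.yy v p ≤ T.rr v c p :=
  Real.le_sqrt_of_sq_le (le_add_of_nonneg_left (sq_nonneg _))

theorem isCompact_disc {S : Set ℝ} (h : IsClosed S) {R : ℝ} (hR : ∀ r ∈ S, r ≤ R)
    (hv : ∀ x ∈ Icc (c - R) (c + R), ∃ a b c, Uni a b ∧ x ∈ Jv v a b c) : IsCompact (T.disc v c S) := by
  refine (T.isCompact_tor isCompact_Icc hv R).of_isClosed_subset (T.isClosed_disc h hR) fun p hp =>
    ⟨hp.1, ?_, (T.yy_le c p).trans (hR _ hp.2)⟩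
  have := abs_le.1 ((T.abs_time_le c p).trans (hR _ hp.2))
  constructor <;> linarith

theorem rr_vtx (hu : Uni a b) {z : ℂ × ℂ} (h : z ∈ Uv v a b c) :
    T.rr v c (T.vtx v hu c z) = ‖z.1‖ ^ 2 + ‖z.2‖ ^ 2 := by
  rw [rr, T.rad_vtx hu h, Real.sqrt_sq (by positivity)]

theorem rr_rc (hu : Uni a b) {p : Circle × E3} (h : rc c p ∈ Ur v a) :
    T.rr v c (T.rod v hu (rc c p)) = ‖p.2‖ := by
  rw [rr, T.time_rod hu h, T.yy_rod hu h, ← Real.sqrt_sq (norm_nonneg p.2), ← norm_L3]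
  simp [rc]

theorem time_of_rr {p : X T v} (h : T.yy v p = 0) :
    T.time v p = c - T.rr v c p ∨ T.time v p = c + T.rr v c p := by
  rw [rr, h, zero_pow two_ne_zero, add_zero, Real.sqrt_sq_eq_abs]
  rcases abs_cases (T.time v p - c) with k | k <;> rw [k.1] <;> simp

theorem mem_Uv_of {z : ℂ × ℂ} {r : ℝ} (hr : 0 < r) (h : ‖z.1‖ ^ 2 + ‖z.2‖ ^ 2 = r) (h1 : c - r ∈ Jr v a)
    (h2 : c + r ∈ Jr v b) : z ∈ Uv v a b c := by
  by_cases e1 : z.1 = 0
  · refine Or.inr ?_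
    rw [show tm c z = c - r by rw [tm, ← h, e1, norm_zero]; ring]
    exact Jv.of_left h1 (by linarith)
  · by_cases e2 : z.2 = 0
    · refine Or.inr ?_
      rw [show tm c z = c + r by rw [tm, ← h, e2, norm_zero]; ring]
      exact Jv.of_right h2 (by linarith)
    · exact Or.inl ⟨e1, e2⟩

theorem mem_Ur_of {p : Circle × E3} (h1 : c - ‖p.2‖ ∈ Jr v a) (h2 : c + ‖p.2‖ ∈ Jr v a) :
    rc c p ∈ Ur v a := by
  by_cases e : (L3 p.2).1 = 0
  · have := norm_L3 p.2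
    rw [e, norm_zero, zero_pow two_ne_zero, add_zero, sq_eq_sq_iff_eq_or_eq_neg] at this
    rcases this with k | k
    · exact Or.inr (by simpa only [rc, k] using h2)
    · exact Or.inr (by simpa only [rc, k, sub_eq_add_neg] using h1)
  · exact Or.inl e

/-- the data of a half circle neck -/
structure Arc (v : ℝ → Z2) (a b : Z2) (c : ℝ) (ρ : ℝ → ℝ) : Prop where
  oe : IsOE 𝓘(ℝ, ℝ) 𝓘(ℝ, ℝ) ρ
  pos : ∀ s, 0 < ρ s
  left : ∀ s, c - ρ s ∈ Jr v a
  right : ∀ s, c + ρ s ∈ Jr v b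

variable {ρ : ℝ → ℝ}

variable (v) in
/-- the `S³` neck -/
def sb (hu : Uni a b) (c : ℝ) (ρ : ℝ → ℝ) (p : sphere (0 : E4) 1 × ℝ) : X T v :=
  T.vtx v hu c (L4 (√(ρ p.2) • (p.1 : E4)))

theorem Arc.nsq (h : Arc v a b c ρ) (p : sphere (0 : E4) 1 × ℝ) :
    ‖(L4 (√(ρ p.2) • (p.1 : E4))).1‖ ^ 2 + ‖(L4 (√(ρ p.2) • (p.1 : E4))).2‖ ^ 2 = ρ p.2 := by
  rw [norm_L4, norm_smul, norm_eq_of_mem_sphere, mul_one, Real.norm_eq_abs, sq_abs, Real.sq_sqrt (h.pos _).le]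

theorem Arc.mem_Uv (h : Arc v a b c ρ) (p : sphere (0 : E4) 1 × ℝ) :
    L4 (√(ρ p.2) • (p.1 : E4)) ∈ Uv v a b c := mem_Uv_of (h.pos _) (h.nsq p) (h.left _) (h.right _)

theorem isOE_sb (hu : Uni a b) (h : Arc v a b c ρ) :
    IsOE ((𝓡 3).prod 𝓘(ℝ, ℝ)) (𝓡 4) (T.sb v hu c ρ) :=
  IsOE.of_pd (T.vtx v hu c) ((IsOE.of_diffeo L4.toDiffeomorph).comp
    (isOE_shell (isOE_sqrt h.oe h.pos) fun s => Real.sqrt_pos.2 (h.pos s))) h.mem_Uv

theorem rr_sb (hu : Uni a b) (h : Arc v a b c ρ) (p : sphere (0 : E4) 1 × ℝ) :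
    T.rr v c (T.sb v hu c ρ p) = ρ p.2 := (T.rr_vtx hu (h.mem_Uv p)).trans (h.nsq p)

theorem image_sb (hu : Uni a b) (h : Arc v a b c ρ) (S : Set ℝ) :
    T.sb v hu c ρ '' (univ ×ˢ S) = T.disc v c (ρ '' S) := by
  ext p
  constructor
  · rintro ⟨q, hq, rfl⟩
    exact ⟨T.vtx_mem_tor hu (h.mem_Uv q), q.2, hq.2, (T.rr_sb hu h q).symm⟩
  · rintro ⟨h1, s, hs, e⟩
    change ρ s = T.rr v c p at e
    obtain ⟨z, hz, rfl⟩ := T.mem_vtx hu (c := c) h1 ((em _).symm.imp_right fun k => by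
      rcases T.time_of_rr (c := c) k with k | k <;> rw [k, ← e]
      exacts [Jv.of_left (h.left s) (by linarith [h.pos s]), Jv.of_right (h.right s) (by linarith [h.pos s])])
    obtain ⟨x, rfl⟩ := L4.surjective z
    rw [T.rr_vtx hu hz, norm_L4] at e
    obtain ⟨u, hx⟩ := exists_shell (x := x) (Real.sqrt_pos.2 (h.pos s)) (by rw [e, Real.sqrt_sq (norm_nonneg _)])
    exact ⟨(u, s), ⟨mem_univ _, hs⟩, by rw [sb, hx]⟩

variable (v) in
/-- the `S¹ × S²` neck -/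
def rb (hu : Uni a b) (c : ℝ) (ρ : ℝ → ℝ) (p : (Circle × sphere (0 : E3) 1) × ℝ) : X T v :=
  T.rod v hu (rc c (p.1.1, ρ p.2 • (p.1.2 : E3)))

theorem Arc.nrm (h : Arc v a b c ρ) (u : sphere (0 : E3) 1) (s : ℝ) : ‖ρ s • (u : E3)‖ = ρ s := by
  rw [norm_smul, norm_eq_of_mem_sphere, mul_one, Real.norm_of_nonneg (h.pos s).le]

theorem Arc.mem_Ur (h : Arc v a a c ρ) (p : (Circle × sphere (0 : E3) 1) × ℝ) :
    rc c (p.1.1, ρ p.2 • (p.1.2 : E3)) ∈ Ur v a :=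
  mem_Ur_of (by rw [h.nrm]; exact h.left _) (by rw [h.nrm]; exact h.right _)

theorem isOE_rb (hu : Uni a b) (h : Arc v a a c ρ) :
    IsOE (((𝓡 1).prod (𝓡 2)).prod 𝓘(ℝ, ℝ)) (𝓡 4) (T.rb v hu c ρ) := by
  have h1 : IsOE (((𝓡 1).prod (𝓡 2)).prod 𝓘(ℝ, ℝ)) ((𝓡 1).prod ((𝓡 2).prod 𝓘(ℝ, ℝ)))
      fun p : (Circle × sphere (0 : E3) 1) × ℝ => (p.1.1, (p.1.2, p.2)) :=
    isOE_assoc
  exact IsOE.of_pd (T.rod v hu) ((isOE_rc c).comp
    ((IsOE.id.prodMap (isOE_shell h.oe h.pos)).comp h1)) h.mem_Ur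

theorem rr_rb (hu : Uni a b) (h : Arc v a a c ρ) (p : (Circle × sphere (0 : E3) 1) × ℝ) :
    T.rr v c (T.rb v hu c ρ p) = ρ p.2 := (T.rr_rc hu (h.mem_Ur p)).trans (h.nrm _ _)

theorem image_rb (hu : Uni a b) (h : Arc v a a c ρ) (S : Set ℝ) :
    T.rb v hu c ρ '' (univ ×ˢ S) = T.disc v c (ρ '' S) := by
  ext p
  constructor
  · rintro ⟨q, hq, rfl⟩
    exact ⟨T.rod_mem_tor hu (h.mem_Ur q), q.2, hq.2, (T.rr_rb hu h q).symm⟩
  · rintro ⟨h1, s, hs, e⟩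
    change ρ s = T.rr v c p at e
    obtain ⟨w, hw, rfl⟩ := T.mem_rod hu h1 ((em _).symm.imp_right fun k => by
      rcases T.time_of_rr (c := c) k with k | k <;> rw [k, ← e]
      exacts [h.left s, h.right s])
    obtain ⟨⟨u, x⟩, rfl⟩ := rc_surj c w
    rw [T.rr_rc hu hw] at e
    obtain ⟨o, hx⟩ := exists_shell (x := x) (h.pos s) e.symm
    exact ⟨((u, o), s), ⟨mem_univ _, hs⟩, by rw [rb, hx]⟩

end Tb

variable {EY HY : Type} [NormedAddCommGroup EY] [NormedSpace ℝ EY] [TopologicalSpace HY]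

/-- a filling of the tube along the slope `a` -/
structure Fl (T : Tb IN N) (a b : Z2) (IY : ModelWithCorners ℝ EY HY) (Y : Type) [TopologicalSpace Y]
    [ChartedSpace HY Y] where
  W : Opens N
  hW : ∀ p, p ∈ W ↔ p ∈ T.Ex
  ie : W → Y
  it : Circle × ℂ → Y
  oeE : IsOE IN IY ie
  oeT : IsOE IT IY it
  surj : ∀ y, (∃ p, ie p = y) ∨ ∃ w, it w = y
  eq : ∀ p w, ie p = it w ↔ w.2 ≠ 0 ∧ T.τ (gl a b w) = p

namespace Fl

variable {T : Tb IN N} {a b : Z2} {IY : ModelWithCorners ℝ EY HY} {Y : Type} [TopologicalSpace Y]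
  [ChartedSpace HY Y] (F : Fl T a b IY Y) (v : ℝ → Z2) (hu : Uni a b)

/-- the product structure over the rods of slope `± a` -/
def cyf (p : Y × ℝ) : X T v :=
  extend F.it (fun w => T.rod v hu (w, p.2)) (extend F.ie (fun q => T.ext v (q.1, p.2))
    fun _ => T.ext v (T.τ (1, 1), 0)) p.1

theorem cyf_it (w : Circle × ℂ) (x : ℝ) : F.cyf v hu (F.it w, x) = T.rod v hu (w, x) :=
  F.oeT.inj.extend_apply _ _ _

theorem cyf_ie (q : F.W) (x : ℝ) : F.cyf v hu (F.ie q, x) = T.ext v (q.1, x) := by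
  by_cases h : ∃ w, F.it w = F.ie q
  · obtain ⟨w, e⟩ := h
    obtain ⟨h1, h2⟩ := (F.eq q w).1 e.symm
    rw [← e, cyf_it, T.rod_eq_ext hu h1, h2]
  · exact (extend_apply' _ _ _ h).trans (F.oeE.inj.extend_apply _ _ _)

variable {v}

theorem time_cyf (y : Y) {x : ℝ} (hx : x ∈ Jr v a) : T.time v (F.cyf v hu (y, x)) = x := by
  rcases F.surj y with ⟨q, rfl⟩ | ⟨w, rfl⟩
  · rw [cyf_ie, T.time_ext ((F.hW _).1 q.2)]
  · rw [cyf_it, T.time_rod hu (Or.inr hx)]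

theorem ld_cyf (y : Y) {x : ℝ} (hx : x ∈ Jr v a) :
    IsLocalDiffeomorphAt (IY.prod 𝓘(ℝ, ℝ)) (𝓡 4) ∞ (F.cyf v hu) (y, x) := by
  rcases F.surj y with ⟨q, rfl⟩ | ⟨w, rfl⟩
  · refine Glue52.ld_of_comp (ld_prodMap_at (F.oeE.loc q) (Glue52.ld_id x)) (Glue52.ld_congr
      ((ld_prodMap_at (ld_val F.W q) (Glue52.ld_id x)).comp _ _
        (ld_pd (T.ext v) (mk_mem_prod ((F.hW _).1 q.2) (mem_univ x)))) ?_)
    exact Eventually.of_forall fun z => F.cyf_ie v hu z.1 z.2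
  · refine Glue52.ld_of_comp (ld_prodMap_at (F.oeT.loc w) (Glue52.ld_id x)) (Glue52.ld_congr
      (ld_pd (T.rod v hu) (x := (w, x)) (Or.inr hx)) ?_)
    exact Eventually.of_forall fun z => F.cyf_it v hu z.1 z.2

theorem injOn_cyf : InjOn (F.cyf v hu) (univ ×ˢ Jr v a) := by
  rintro ⟨y, x⟩ h ⟨y', x'⟩ h' e
  obtain rfl : x = x' := ((F.time_cyf hu y h.2).symm.trans (congrArg _ e)).trans (F.time_cyf hu y' h'.2)
  have key : ∀ (q : F.W) w, T.ext v (q.1, x) = T.rod v hu (w, x) → F.ie q = F.it w := by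
    intro q w e
    have e' := congrArg (T.nf v) e
    rw [T.nf_ext ((F.hW _).1 q.2), T.nf_rod hu (Or.inr h.2)] at e'
    by_cases k : w.2 = 0
    · rw [T.Φr_zero k] at e'
      cases e'
    · rw [T.Φr_ne k] at e'
      exact (F.eq q w).2 ⟨k, (congrArg Prod.fst (Sum.inl_injective e')).symm⟩
  refine Prod.ext ?_ rfl
  rcases F.surj y with ⟨q, rfl⟩ | ⟨w, rfl⟩ <;> rcases F.surj y' with ⟨q', rfl⟩ | ⟨w', rfl⟩ <;>
    simp only [cyf_ie, cyf_it] at e
  · have := (T.ext v).injOn (mk_mem_prod ((F.hW _).1 q.2) (mem_univ x))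
      (mk_mem_prod ((F.hW _).1 q'.2) (mem_univ x)) e
    rw [show q = q' from Subtype.ext (congrArg Prod.fst this)]
  · exact key _ _ e
  · exact (key _ _ e.symm).symm
  · have := (T.rod v hu).injOn (x₁ := (w, x)) (x₂ := (w', x)) (Or.inr h.2) (Or.inr h.2) e
    rw [show w = w' from congrArg Prod.fst this]

theorem exists_cyf {p : X T v} (h : T.time v p ∈ Jr v a) : ∃ y, F.cyf v hu (y, T.time v p) = p := by
  rcases T.ext_or_axis p with ⟨s, hs, rfl⟩ | ⟨k, -⟩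
  · exact ⟨F.ie ⟨s.1, (F.hW _).2 hs⟩, by rw [cyf_ie, T.time_ext hs]⟩
  · obtain ⟨w, hw, rfl⟩ := T.mem_rod hu k (Or.inr h)
    exact ⟨F.it w.1, by rw [cyf_it, T.time_rod hu hw]⟩

theorem image_cyf {S : Set ℝ} (hS : S ⊆ Jr v a) : F.cyf v hu '' (univ ×ˢ S) = T.time v ⁻¹' S := by
  ext p
  constructor
  · rintro ⟨⟨y, x⟩, h, rfl⟩
    rw [mem_preimage, F.time_cyf hu y (hS h.2)]
    exact h.2
  · intro h
    obtain ⟨y, e⟩ := F.exists_cyf hu (hS h)
    exact ⟨(y, T.time v p), ⟨mem_univ _, h⟩, e⟩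

variable (v) in
/-- the vertical neck over the interval `range σ` -/
def yb (σ : ℝ → ℝ) (p : Y × ℝ) : X T v := F.cyf v hu (p.1, σ p.2)

variable {σ : ℝ → ℝ}

theorem isOE_yb (h : IsOE 𝓘(ℝ, ℝ) 𝓘(ℝ, ℝ) σ) (hσ : ∀ s, σ s ∈ Jr v a) :
    IsOE (IY.prod 𝓘(ℝ, ℝ)) (𝓡 4) (F.yb v hu σ) :=
  ⟨fun _ _ e => (IsOE.id.prodMap h : IsOE (IY.prod _) (IY.prod _) _).inj
      (F.injOn_cyf hu ⟨mem_univ _, hσ _⟩ ⟨mem_univ _, hσ _⟩ e),
    fun p => ((IsOE.id.prodMap h : IsOE (IY.prod _) (IY.prod _) _).loc p).comp _ _ (F.ld_cyf hu p.1 (hσ _))⟩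

theorem time_yb (hσ : ∀ s, σ s ∈ Jr v a) (p : Y × ℝ) : T.time v (F.yb v hu σ p) = σ p.2 :=
  F.time_cyf hu _ (hσ _)

theorem image_yb (hσ : ∀ s, σ s ∈ Jr v a) (S : Set ℝ) :
    F.yb v hu σ '' (univ ×ˢ S) = T.time v ⁻¹' (σ '' S) := by
  rw [← F.image_cyf hu (by rintro _ ⟨s, -, rfl⟩; exact hσ s)]
  ext p
  constructor
  · rintro ⟨q, hq, rfl⟩
    exact ⟨_, ⟨mem_univ _, q.2, hq.2, rfl⟩, rfl⟩
  · rintro ⟨⟨y, _⟩, ⟨-, s, hs, rfl⟩, rfl⟩
    exact ⟨(y, s), ⟨mem_univ _, hs⟩, rfl⟩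

end Fl

section Ext52

open Crest.GeometryTopology.DehnSurgery Crest.Agent.X212.Ext52

/-- the tube of a knot in the three-sphere -/
def ofTube (t : Tube) : Tb (𝓡 3) S3 := ⟨t.τ, t.ld, t.inj, by simp⟩

/-- the slope vector of filling data -/
def sa (σ : FillingData) : Z2 := (σ.q, σ.p)

/-- the complementary vector of filling data -/
def sb (σ : FillingData) : Z2 := (σ.b, σ.a)

theorem uni_s (σ : FillingData) : Uni (sa σ) (sb σ) := Or.inl σ.det

/-- the smooth Dehn filling of `Ext52` -/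
def ofFill (t : Tube) (σ : FillingData) : Fl (ofTube t) (sa σ) (sb σ) (𝓡 3) (Fill t σ) where
  W := t.Ext
  hW _ := ⟨fun h u e => h ⟨(u, 0), ⟨mem_univ _, rfl⟩, e⟩, fun h ⟨w, hw, e⟩ =>
    h w.1 (by rw [← e, ← show w.2 = 0 from hw.2]; rfl)⟩
  ie := t.ie σ
  it := t.it σ
  oeE := ⟨(t.two σ).inl_injective, (t.two σ).ld_inl⟩
  oeT := ⟨(t.two σ).inr_injective, (t.two σ).ld_inr⟩
  surj := (t.two σ).surj
  eq _ _ := t.ie_eq_it σ

end Ext52

end Crest.Agent.X212.Rod53
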